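import Mathlib

/-! A polynomial-size `B₄` sequence and the exact-clock code built on it. -/

set_option autoImplicit false

namespace Crest.Agent.R320

/-- The sequence of slots. -/
def sid (H k : ℕ) : ℕ := k + H * (k ^ 2 + H * (k ^ 3 + H * k ^ 4))

theorem sid_zero (H : ℕ) : sid H 0 = 0 := by simp [sid]

theorem sid_mono (H : ℕ) {k k' : ℕ} (h : k ≤ k') : sid H k ≤ sid H k' := by
  unfold sid
  gcongr

theorem dig {H x y x' y' : ℕ} (hx : x < H) (hx' : x' < H) (h : x + H * y = x' + H * y') :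
    x = x' ∧ y = y' := by
  have h1 := congrArg (· % H) h
  simp only [Nat.add_mul_mod_self_left, Nat.mod_eq_of_lt hx, Nat.mod_eq_of_lt hx'] at h1
  subst h1
  exact ⟨rfl, Nat.eq_of_mul_eq_mul_left (by omega) (Nat.add_left_cancel h)⟩

theorem newton4 (x a b c d : ℤ) : 24 * ((x - a) * (x - b) * (x - c) * (x - d)) =
    24 * x ^ 4 - 24 * (a + b + c + d) * x ^ 3 +
      12 * ((a + b + c + d) ^ 2 - (a ^ 2 + b ^ 2 + c ^ 2 + d ^ 2)) * x ^ 2 -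
      4 * ((a + b + c + d) ^ 3 - 3 * (a + b + c + d) * (a ^ 2 + b ^ 2 + c ^ 2 + d ^ 2) +
        2 * (a ^ 3 + b ^ 3 + c ^ 3 + d ^ 3)) * x +
      ((a + b + c + d) ^ 4 - 6 * (a + b + c + d) ^ 2 * (a ^ 2 + b ^ 2 + c ^ 2 + d ^ 2) +
        3 * (a ^ 2 + b ^ 2 + c ^ 2 + d ^ 2) ^ 2 +
        8 * (a + b + c + d) * (a ^ 3 + b ^ 3 + c ^ 3 + d ^ 3) -
        6 * (a ^ 4 + b ^ 4 + c ^ 4 + d ^ 4)) := by ring

theorem sid_B4 {K H : ℕ} (hH : 4 * K ^ 4 < H) {a1 a2 a3 a4 b1 b2 b3 b4 : ℕ}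
    (h1 : a1 ≤ K) (h2 : a2 ≤ K) (h3 : a3 ≤ K) (h4 : a4 ≤ K)
    (k1 : b1 ≤ K) (k2 : b2 ≤ K) (k3 : b3 ≤ K) (k4 : b4 ≤ K)
    (h : sid H a1 + sid H a2 + sid H a3 + sid H a4 = sid H b1 + sid H b2 + sid H b3 + sid H b4) :
    a1 = b1 ∨ a1 = b2 ∨ a1 = b3 ∨ a1 = b4 := by
  have bound : ∀ e, 0 < e → e ≤ 4 → ∀ x, x ≤ K → x ^ e ≤ K ^ 4 := by
    intro e he he4 x hx
    rcases Nat.eq_zero_or_pos K with rfl | hK
    · obtain rfl : x = 0 := by omega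
      rw [zero_pow (by omega)]; omega
    · exact (Nat.pow_le_pow_left hx e).trans (Nat.pow_le_pow_right hK he4)
  have hb : ∀ e, 0 < e → e ≤ 4 → ∀ x y z w, x ≤ K → y ≤ K → z ≤ K → w ≤ K →
      x ^ e + y ^ e + z ^ e + w ^ e < H := by
    intro e he he4 x y z w hx hy hz hw
    have := bound e he he4 x hx
    have := bound e he he4 y hy
    have := bound e he he4 z hz
    have := bound e he he4 w hw
    omega
  have e : (a1 ^ 1 + a2 ^ 1 + a3 ^ 1 + a4 ^ 1) + H * ((a1 ^ 2 + a2 ^ 2 + a3 ^ 2 + a4 ^ 2) +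
      H * ((a1 ^ 3 + a2 ^ 3 + a3 ^ 3 + a4 ^ 3) + H * (a1 ^ 4 + a2 ^ 4 + a3 ^ 4 + a4 ^ 4))) =
      (b1 ^ 1 + b2 ^ 1 + b3 ^ 1 + b4 ^ 1) + H * ((b1 ^ 2 + b2 ^ 2 + b3 ^ 2 + b4 ^ 2) +
      H * ((b1 ^ 3 + b2 ^ 3 + b3 ^ 3 + b4 ^ 3) + H * (b1 ^ 4 + b2 ^ 4 + b3 ^ 4 + b4 ^ 4))) := by
    unfold sid at h
    linarith
  obtain ⟨p1, e⟩ := dig (hb 1 (by omega) (by omega) _ _ _ _ h1 h2 h3 h4)
    (hb 1 (by omega) (by omega) _ _ _ _ k1 k2 k3 k4) e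
  obtain ⟨p2, e⟩ := dig (hb 2 (by omega) (by omega) _ _ _ _ h1 h2 h3 h4)
    (hb 2 (by omega) (by omega) _ _ _ _ k1 k2 k3 k4) e
  obtain ⟨p3, p4⟩ := dig (hb 3 (by omega) (by omega) _ _ _ _ h1 h2 h3 h4)
    (hb 3 (by omega) (by omega) _ _ _ _ k1 k2 k3 k4) e
  simp only [pow_one] at p1
  have q1 : (a1 : ℤ) + a2 + a3 + a4 = b1 + b2 + b3 + b4 := by exact_mod_cast p1
  have q2 : (a1 : ℤ) ^ 2 + a2 ^ 2 + a3 ^ 2 + a4 ^ 2 = b1 ^ 2 + b2 ^ 2 + b3 ^ 2 + b4 ^ 2 := by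
    exact_mod_cast p2
  have q3 : (a1 : ℤ) ^ 3 + a2 ^ 3 + a3 ^ 3 + a4 ^ 3 = b1 ^ 3 + b2 ^ 3 + b3 ^ 3 + b4 ^ 3 := by
    exact_mod_cast p3
  have q4 : (a1 : ℤ) ^ 4 + a2 ^ 4 + a3 ^ 4 + a4 ^ 4 = b1 ^ 4 + b2 ^ 4 + b3 ^ 4 + b4 ^ 4 := by
    exact_mod_cast p4
  have n1 := newton4 a1 a1 a2 a3 a4
  have n2 := newton4 a1 b1 b2 b3 b4
  rw [q1, q2, q3, q4, ← n2] at n1
  have : ((a1 : ℤ) - b1) * (a1 - b2) * (a1 - b3) * (a1 - b4) = 0 := by
    have h0 : ((a1 : ℤ) - a1) = 0 := sub_self _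
    rw [h0] at n1
    linarith
  simp only [mul_eq_zero, sub_eq_zero, Nat.cast_inj] at this
  tauto

section code

variable {Sl J : Type*} (al : Sl → ℕ) (kp : Sl → J)

/-- Acceptance of the hypothesis `σ'` at distance `b` from the landmark. -/
def Acc (E : J → ℤ → Prop) (b : ℤ) (σ' : Sl) : Prop :=
  E (kp σ') (b + al σ') ∧
    ∀ τ ρ ρ', τ ≠ σ' → ρ' ≠ σ' → ∀ k, ¬ E k (b + al τ - al ρ + al ρ')

variable {al kp} {E E' : J → ℤ → Prop} {D : ℕ} {Γ : ℤ}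

theorem Acc.congr (hD : ∀ σ, al σ ≤ D) {σ σ' : Sl}
    (hE : ∀ k x, Γ - 2 * D ≤ x → x ≤ Γ + 2 * D → (E k x ↔ E' k x))
    (h : Acc al kp E (Γ - al σ) σ') : Acc al kp E' (Γ - al σ) σ' := by
  have hD' : ∀ σ, (al σ : ℤ) ≤ D := fun σ => by exact_mod_cast hD σ
  have h0 : ∀ σ, (0 : ℤ) ≤ al σ := fun σ => Int.natCast_nonneg _
  refine ⟨(hE _ _ (by have := hD' σ; have := h0 σ'; omega)
    (by have := hD' σ'; have := h0 σ; omega)).1 h.1, fun τ ρ ρ' h1 h2 k hk => ?_⟩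
  exact h.2 τ ρ ρ' h1 h2 k ((hE _ _
    (by have := hD' σ; have := hD' ρ; have := h0 τ; have := h0 ρ'; omega)
    (by have := hD' τ; have := hD' ρ'; have := h0 σ; have := h0 ρ; omega)).2 hk)

theorem Acc.exact {σ σ' : Sl} {k : J} (hk : E k Γ) (h : Acc al kp E (Γ - al σ) σ') : σ' = σ := by
  by_contra hne
  apply h.2 σ σ σ (Ne.symm hne) (Ne.symm hne) k
  rwa [show Γ - al σ + al σ - al σ + al σ = Γ by ring]

theorem Acc.unique (hD : ∀ σ, al σ ≤ D) (hinj : Function.Injective al)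
    (huq : ∀ k x y, E k x → E k y → x - y ≤ 4 * D → y - x ≤ 4 * D → x = y)
    (hno : ∀ k, ¬ E k Γ) {σ σ' ρ ρ' : Sl} (h : Acc al kp E (Γ - al σ) σ')
    (h' : Acc al kp E (Γ - al ρ) ρ') : σ = ρ ∧ σ' = ρ' := by
  have hD' : ∀ σ, (al σ : ℤ) ≤ D := fun σ => by exact_mod_cast hD σ
  have h0 : ∀ σ, (0 : ℤ) ≤ al σ := fun σ => Int.natCast_nonneg _
  have e : σ' = ρ' := by
    by_contra hne
    have hs : σ ≠ σ' := by
      rintro rfl
      apply hno (kp σ)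
      have := h.1
      rwa [sub_add_cancel] at this
    apply h.2 σ ρ ρ' hs (Ne.symm hne) (kp ρ')
    rw [sub_add_cancel]
    exact h'.1
  subst e
  have := huq _ _ _ h.1 h'.1 (by have := hD' ρ; have := h0 σ; omega)
    (by have := hD' σ; have := h0 ρ; omega)
  exact ⟨hinj (by omega), rfl⟩

theorem Acc.complete [Fintype J] (hD : ∀ σ, al σ ≤ D)
    (hB : ∀ a1 a2 a3 a4 b1 b2 b3 b4, al a1 + al a2 + al a3 + al a4 = al b1 + al b2 + al b3 + al b4 →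
      a1 = b1 ∨ a1 = b2 ∨ a1 = b3 ∨ a1 = b4)
    (huq : ∀ k x y, E k x → E k y → x - y ≤ 4 * D → y - x ≤ 4 * D → x = y)
    {k0 : J} (hk : E k0 Γ) {n : ℕ} (hn : 2 * Fintype.card J < n) (f : Fin n → Sl)
    (hf : Function.Injective f) (hkp : ∀ l, kp (f l) = k0) :
    ∃ l, Acc al kp E (Γ - al (f l)) (f l) := by
  classical
  have hD' : ∀ σ, (al σ : ℤ) ≤ D := fun σ => by exact_mod_cast hD σ
  have h0 : ∀ σ, (0 : ℤ) ≤ al σ := fun σ => Int.natCast_nonneg _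
  by_contra hc
  push Not at hc
  have : ∀ l, ∃ k τ ρ ρ', τ ≠ f l ∧ ρ' ≠ f l ∧ E k (Γ - al (f l) + al τ - al ρ + al ρ') := by
    intro l
    by_contra hd
    push Not at hd
    exact hc l ⟨by rw [sub_add_cancel, hkp]; exact hk, fun τ ρ ρ' h1 h2 k => hd k τ ρ ρ' h1 h2⟩
  choose k τ ρ ρ' h1 h2 h3 using this
  obtain ⟨c, hcard⟩ := Fintype.exists_lt_card_fiber_of_mul_lt_card k (n := 2)
    (by simpa [mul_comm] using hn)
  obtain ⟨l1, m1, l2, m2, l3, m3, n12, n13, n23⟩ := Finset.two_lt_card.1 hcard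
  have key : ∀ l l', k l = c → k l' = c → l ≠ l' → f l = ρ l' := by
    intro l l' a b hne
    have e := huq c _ _ (a ▸ h3 l) (b ▸ h3 l')
      (by have := hD' (τ l); have := hD' (ρ' l); have := hD' (f l'); have := hD' (ρ l')
          have := h0 (τ l'); have := h0 (ρ' l'); have := h0 (f l); have := h0 (ρ l); omega)
      (by have := hD' (τ l'); have := hD' (ρ' l'); have := hD' (f l); have := hD' (ρ l)
          have := h0 (τ l); have := h0 (ρ' l); have := h0 (f l'); have := h0 (ρ l'); omega)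
    rcases hB (f l) (ρ l) (τ l') (ρ' l') (f l') (ρ l') (τ l) (ρ' l) (by omega) with h | h | h | h
    · exact absurd (hf h) hne
    · exact h
    · exact absurd h.symm (h1 l)
    · exact absurd h.symm (h2 l)
  have a1 := (Finset.mem_filter.1 m1).2
  have a2 := (Finset.mem_filter.1 m2).2
  have a3 := (Finset.mem_filter.1 m3).2
  exact n13 (hf ((key l1 l2 a1 a2 n12).trans (key l3 l2 a3 a2 n23.symm).symm))

end code

end Crest.Agent.R320
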