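import Crest.Agent.R320.AZone

/-! The top star level. -/

set_option autoImplicit false
set_option linter.unusedSectionVars false

namespace Crest.Agent.R320

/-- The position that a label ignores. -/
abbrev gpA (M V : Type) (r : ℕ) : Lab M V r → ℕ := fun l => l.2.1.1.length

open Classical in
/-- The translation attached to a zone. -/
noncomputable def pick {V : Type} [AddCommGroup V] (E : Prop) (Cu : V → V → Prop) (f : V → V)
    (t0 : V) : V :=
  if E then t0 else if h : ∃ yy : V × V, Cu yy.1 yy.2 then h.choose.2 - f h.choose.1 else 0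

theorem pick_pos {V : Type} [AddCommGroup V] {E : Prop} (Cu : V → V → Prop) (f : V → V)
    (t0 : V) (h : E) : pick E Cu f t0 = t0 := by simp [pick, h]

theorem pick_neg {V : Type} [AddCommGroup V] {E : Prop} {Cu : V → V → Prop} (f : V → V)
    (t0 : V) (h : ¬ E) (huq : ∀ y y' x x', Cu y y' → Cu x x' → y = x ∧ y' = x') {y y' : V}
    (hc : Cu y y') : f y + pick E Cu f t0 = y' := by
  have hex : ∃ yy : V × V, Cu yy.1 yy.2 := ⟨(y, y'), hc⟩
  obtain ⟨e1, e2⟩ := huq _ _ _ _ hc hex.choose_spec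
  simp only [pick, h, if_false, hex, dif_pos]
  rw [← e1, ← e2]
  abel

namespace Ctx

variable {α : Type*} {M M' V ΛB : Type} [Monoid M] [Monoid M'] [AddCommGroup V] {r : ℕ}
  (T : Ctx α M M' (Lab M V r) ΛB (gpA M V r) r) (ρ : LinRep M V) (τ : List M → V)

/-- Left parts of a top cut. -/
def AlA (y : V) (p : List α) : Prop :=
  ∃ σ, p.length = T.P.al σ ∧ σ.1.1 = y ∧ σ.1.2.1.1 = (List.range (gpA M V r σ.1)).map (T.seg 0 p)

/-- Right parts of a top cut. -/
def RmA (y' : V) (s : List α) : Prop :=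
  T.K.S T.P.th s ∧ (∀ j, T.P.th - T.P.D ≤ j → j < T.P.th → ¬ T.K.Mk s j) ∧
    ∃ σ, Acc T.P.al (fun σ => σ.2.1) (T.Ev (2 * T.P.D + 1) (T.P.th - T.P.D) s) (T.K.e s) σ ∧
      σ.1.2.1.2 = (List.range' (gpA M V r σ.1 + 1) σ.1.2.1.2.length).map (T.seg (T.P.al σ) s) ∧
      ∃ c, (∀ a, ρ.act (σ.1.2.1.1 ++ a :: σ.1.2.1.2).prod σ.1.1 +
        τ (σ.1.2.1.1 ++ a :: σ.1.2.1.2) = c) ∧ y' = ρ.act (T.η.f (s.drop (T.P.D - T.P.al σ))) c

/-- The zone `u` has a top cut from `y` to `y'`. -/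
def Cut (u : List α) (y y' : V) : Prop := ∃ p s, u = p ++ s ∧ T.AlA y p ∧ T.RmA ρ τ y' s

/-- The translation attached to the zone `u`. -/
noncomputable def tA (u : List α) : V :=
  pick (T.Event u) (T.Cut ρ τ u) (ρ.act (T.η.f u)) (ρ.act (T.η.f (u.drop T.P.D)) (τ (T.XX u)))

theorem AlA_le {y : V} {p : List α} (h : T.AlA y p) : p.length ≤ T.P.D := by
  obtain ⟨σ, h, -⟩ := h
  rw [h]; exact T.P.al_D σ

theorem acc_world {p s : List α} {σ σ' : Lab M V r × (T.P.C × Bool) × Fin T.P.n}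
    (hp : p.length = T.P.al σ) (hs : T.K.S T.P.th s)
    (hno : ∀ j, T.P.th - T.P.D ≤ j → j < T.P.th → ¬ T.K.Mk s j) :
    Acc T.P.al (fun σ => σ.2.1) (T.Ev (2 * T.P.D + 1) (T.P.th - T.P.D) s) (T.K.e s) σ' ↔
    Acc T.P.al (fun σ => σ.2.1) (T.Ev (3 * T.P.D + 1) T.P.th (p ++ s))
      (T.K.e (p ++ s) - T.P.al σ) σ' := by
  have e : (T.K.e s : ℤ) = T.K.e (p ++ s) - T.P.al σ := by
    rw [MkSys.e_append p hs, hp]; push_cast; ring
  have hD : p.length ≤ T.P.D := by rw [hp]; exact T.P.al_D σ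
  rw [e]
  exact ⟨Acc.congr T.P.al_D (fun k x a b => T.Ev_view hD hs hno k x a b),
    Acc.congr T.P.al_D (fun k x a b => (T.Ev_view hD hs hno k x a b).symm)⟩

theorem act_split (u : List α) (y : V) :
    ρ.act (T.η.f u) y + ρ.act (T.η.f (u.drop T.P.D)) (τ (T.XX u)) =
      ρ.act (T.η.f (u.drop T.P.D)) (ρ.act (T.XX u).prod y + τ (T.XX u)) := by
  rw [map_add, T.XX_prod, ← ρ.mul, ← T.η.app, List.take_append_drop]

theorem drop_D {p : List α} (s : List α) (hp : p.length ≤ T.P.D) :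
    (p ++ s).drop T.P.D = s.drop (T.P.D - p.length) := by
  rw [List.drop_append, List.drop_eq_nil_of_le hp, List.nil_append]

theorem cut_sound {u : List α} {y y' : V} (h : T.Cut ρ τ u y y') :
    ρ.act (T.η.f u) y + T.tA ρ τ u = y' := by
  by_cases hE : T.Event u
  · obtain ⟨p, s, rfl, ⟨σ, h1, rfl, h3⟩, hs, hno, σ', h4, h5, c, h6, rfl⟩ := h
    obtain ⟨k, hk⟩ := id hE
    obtain rfl := ((T.acc_world h1 hs hno).1 h4).exact hk
    have hX := T.XX_split s σ'.1.2.2 (h1 ▸ T.P.al_lo σ') (h1 ▸ T.P.al_hi σ')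
    rw [h1, ← h3, ← h5] at hX
    rw [tA, pick_pos _ _ _ hE, T.act_split, T.drop_D s (h1 ▸ T.P.al_D σ'), hX, h6, h1]
  · refine pick_neg _ _ hE ?_ h
    rintro y y' x x' ⟨p, s, rfl, ⟨σ, h1, rfl, -⟩, hs, hno, σ', h4, -, c, h6, rfl⟩
      ⟨p2, s2, e, ⟨σ2, k1, rfl, -⟩, ks, kno, σ2', k4, -, c2, k6, rfl⟩
    have a1 := (T.acc_world h1 hs hno).1 h4
    have a2 := (T.acc_world k1 ks kno).1 k4
    rw [← e] at a2
    obtain ⟨rfl, rfl⟩ := Acc.unique T.P.al_D T.al_inj (T.Ev_uniq _) (fun k hk => hE ⟨k, hk⟩) a1 a2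
    obtain ⟨-, rfl⟩ := List.append_inj e (by rw [h1, k1])
    rw [← h6 1, ← k6 1]
    exact ⟨rfl, rfl⟩

theorem cut_complete
    (hat : ∀ X : List M, X.length = r → ∀ y : V, ∃ X1 x X2, X = X1 ++ x :: X2 ∧
      ∀ a, ρ.act (X1 ++ a :: X2).prod y + τ (X1 ++ a :: X2) = ρ.act X.prod y + τ X)
    {u : List α} (hu : T.K.S T.P.th u) (hG : T.GA u) (y : V) : ∃ y', T.Cut ρ τ u y y' := by
  obtain ⟨X1, x, X2, e, hX⟩ := hat (T.XX u) (by simp [XX]) y
  have hlen : X1.length + X2.length + 1 = r := by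
    have := congrArg List.length e
    simp [XX] at this; omega
  let l : Lab M V r := (y, ⟨(X1, X2), hlen⟩)
  obtain ⟨⟨k, hk⟩, hno⟩ := hG
  let _ := T.P.fC
  obtain ⟨i, hi⟩ := Acc.complete (kp := fun σ => σ.2.1) T.P.al_D T.P.B4 (T.Ev_uniq u) hk T.P.hn
    (fun i => (l, k, i)) (fun i j h => by simpa using h) (fun _ => rfl)
  have hD := T.P.al_D (l, k, i)
  have h1 := hu.1
  have hl := hu.2.1
  have h2 : T.P.th + T.P.D ≤ T.K.e u := by
    by_contra hc
    exact hno _ (by omega) (by omega) hu.2.2.1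
  obtain ⟨p, s, rfl, hp⟩ : ∃ p s, u = p ++ s ∧ p.length = T.P.al (l, k, i) :=
    ⟨u.take (T.P.al (l, k, i)), u.drop (T.P.al (l, k, i)), by simp, by simp; omega⟩
  have hs : T.K.S T.P.th s := by
    have := hu.drop (θ' := T.P.th) (a := p.length) (by omega) (fun j a b => by omega)
    rwa [List.drop_left] at this
  have hno' : ∀ j, T.P.th - T.P.D ≤ j → j < T.P.th → ¬ T.K.Mk s j := by
    intro j a b
    rw [← T.K.right p]
    exact hno _ (by omega) (by omega)
  have hsp := T.XX_split s hlen (hp ▸ T.P.al_lo (l, k, i)) (hp ▸ T.P.al_hi (l, k, i))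
  rw [e] at hsp
  obtain ⟨e1, e2⟩ := List.append_inj hsp (by simp)
  refine ⟨_, p, s, rfl, ⟨(l, k, i), hp, rfl, e1⟩, hs, hno', (l, k, i),
    (T.acc_world hp hs hno').2 hi, ?_, _, hX, rfl⟩
  rw [← hp]
  exact (List.cons.inj e2).2

theorem RmA_inv {s s' : List α} {c θ : ℕ} {y : V} (hs' : T.K.S T.P.th s')
    (h1 : s.take c = s'.take c) (hc : T.P.th + T.K.R ≤ c) (hθ : T.P.D ≤ θ) (hθ' : θ ≤ T.P.th)
    (h2 : T.ψ.f (s.drop θ) = T.ψ.f (s'.drop θ)) (h : T.RmA ρ τ y s) : T.RmA ρ τ y s' := by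
  obtain ⟨hs, hno, σ, h4, h5, d, h6, rfl⟩ := h
  refine ⟨hs', fun j a b => ?_, σ, h4.shift (T.Ev_congr h1 (by omega) (T.e_modEq hs hs' hθ' h2)),
    ?_, d, h6, ?_⟩
  · rw [← MkSys.mk_congr h1 (by omega)]
    exact hno j a b
  · refine h5.trans (List.map_congr_left (fun j hj => T.seg_congr _ h1 ?_))
    rw [List.mem_range'_1] at hj
    have := σ.1.2.2
    have := T.g_le (j := j + 1) (by simp only [gpA] at hj; omega)
    omega
  · rw [T.eta_drop_congr h1 (by omega) (by omega) h2]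

theorem Cut_inv {u u' : List α} {y y' : V} (hu' : T.K.S T.P.th u')
    (h1 : u.take (T.P.th + T.P.D + T.K.R) = u'.take (T.P.th + T.P.D + T.K.R))
    (h2 : T.ψ.f (u.drop T.P.th) = T.ψ.f (u'.drop T.P.th)) (h : T.Cut ρ τ u y y') :
    T.Cut ρ τ u' y y' := by
  have hth : T.P.th = 3 * T.P.D + 1 + 3 * T.P.z := rfl
  obtain ⟨p, s, rfl, hp, hs⟩ := h
  have hD := T.AlA_le hp
  have e : u'.take p.length = p := by
    have := drop_take_congr (a := 0) (b := p.length) h1 (by omega)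
    simpa using this.symm
  obtain ⟨s', rfl⟩ : ∃ s', u' = p ++ s' := ⟨u'.drop p.length, by
    conv_lhs => rw [← List.take_append_drop p.length u', e]⟩
  have h3 := drop_take_congr (a := p.length) (b := T.P.th + T.K.R) h1 (by omega)
  rw [List.drop_left, List.drop_left] at h3
  refine ⟨p, s', rfl, hp, T.RmA_inv ρ τ (θ := T.P.th - p.length) ?_ h3 le_rfl (by omega)
    (by omega) ?_ hs⟩
  · have h4 : p.length + T.P.th ≤ T.K.e (p ++ s') := by
      by_contra hc
      have a := hu'.1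
      have hm := hu'.2.2.1
      rw [← MkSys.mk_congr h1 (by omega), show T.K.e (p ++ s') =
        p.length + (T.K.e (p ++ s') - p.length) by omega, T.K.right] at hm
      exact hs.2.1 _ (by omega) (by omega) hm
    have := hu'.drop (θ' := T.P.th) (a := p.length) h4 (fun j a b => by omega)
    rwa [List.drop_left] at this
  · rwa [List.drop_append, List.drop_append, List.drop_eq_nil_of_le (by omega), List.nil_append,
      List.nil_append] at h2

theorem zone_inv {u u' : List α} (hu : T.K.S T.P.th u) (hu' : T.K.S T.P.th u')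
    (h1 : u.take (T.P.th + T.P.D + T.K.R) = u'.take (T.P.th + T.P.D + T.K.R))
    (h2 : T.ψ.f (u.drop T.P.th) = T.ψ.f (u'.drop T.P.th)) :
    (T.GA u ↔ T.GA u') ∧ T.η.f u = T.η.f u' ∧ T.tA ρ τ u = T.tA ρ τ u' := by
  have hth : T.P.th = 3 * T.P.D + 1 + 3 * T.P.z := rfl
  have hE : T.Event u ↔ T.Event u' := by
    refine exists_congr (fun k => ?_)
    simpa using T.Ev_congr h1 (by omega) (T.e_modEq hu hu' le_rfl h2) k 0
  have hη : T.η.f u = T.η.f u' := by
    simpa using T.eta_drop_congr (b := 0) h1 (by omega) (by omega) h2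
  have hC : T.Cut ρ τ u = T.Cut ρ τ u' := by
    funext y y'
    exact propext ⟨T.Cut_inv ρ τ hu' h1 h2, T.Cut_inv ρ τ hu h1.symm h2.symm⟩
  have hX : T.XX u = T.XX u' := by
    refine List.map_congr_left (fun j hj => T.seg_congr _ h1 ?_)
    rw [List.mem_range] at hj
    have := T.g_le (j := j + 1) hj
    omega
  refine ⟨and_congr hE (forall_congr' fun j => imp_congr_right fun _ => imp_congr_right fun _ =>
    not_congr (MkSys.mk_congr h1 (by omega))), hη, ?_⟩
  rw [tA, tA, propext hE, hη, hC, hX, T.eta_drop_congr (b := T.P.D) h1 (by omega) (by omega) h2]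

end Ctx

end Crest.Agent.R320
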