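import Crest.Agent.R320.Cut

/-! The middle star level: blocks of a fixed number of zones. -/

set_option autoImplicit false

namespace Crest.Agent.R320

/-- Labels: a thread together with the letters around the ignored position. -/
abbrev Lab (M V : Type) (r : ℕ) : Type :=
  V × {XX : List M × List M // XX.1.length + XX.2.length + 1 = r}

instance (M V : Type) [Finite M] [Finite V] (r : ℕ) : Finite (Lab M V r) := by
  have : ({XX : List M × List M | XX.1.length + XX.2.length + 1 = r}).Finite :=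
    ((List.finite_length_le M r).prod (List.finite_length_le M r)).subset
      (fun XX h => ⟨by simp at h ⊢; omega, by simp at h ⊢; omega⟩)
  have : Finite {XX : List M × List M // XX.1.length + XX.2.length + 1 = r} := this.to_subtype
  infer_instance

variable {α : Type*}

/-- Words spelled by zones with prescribed values. -/
def ZL {M : Type} (G : List α → Prop) (φ : List α → M) (xs : List M) (w : List α) : Prop :=
  ∃ l : List (List α), (∀ u ∈ l, G u) ∧ w = Fl id l ∧ l.map φ = xs

theorem ht_ZL {M : Type} {G : List α → Prop} {φ : List α → M} {h : ℕ}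
    (hφ : ∀ x, Ht h (fun u => G u ∧ φ u = x)) (xs : List M) : Ht h (ZL G φ xs) := by
  induction xs with
  | nil =>
    refine Ht.nil'.congr (fun w => ⟨?_, ?_⟩)
    · rintro rfl
      exact ⟨[], by simp, rfl, rfl⟩
    · rintro ⟨l, -, rfl, h⟩
      rw [List.map_eq_nil_iff.1 h]; rfl
  | cons x xs ih =>
    refine ((hφ x).cat ih).congr (fun w => ⟨?_, ?_⟩)
    · rintro ⟨u, v, rfl, ⟨h1, rfl⟩, l, h2, rfl, rfl⟩
      exact ⟨u :: l, by simpa [h1] using h2, rfl, rfl⟩
    · rintro ⟨l, h1, rfl, h2⟩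
      obtain ⟨u, l, rfl, rfl, rfl⟩ := List.map_eq_cons_iff.1 h2
      exact ⟨u, _, rfl, ⟨h1 u (by simp), rfl⟩, l, fun v hv => h1 v (by simp [hv]), rfl, rfl⟩

theorem chunk {β : Type*} {r : ℕ} (hr : 0 < r) (l : List β) : ∃ (L : List (List β)) (rem : List β),
    l = L.flatten ++ rem ∧ (∀ b ∈ L, b.length = r) ∧ rem.length < r := by
  induction hn : l.length using Nat.strong_induction_on generalizing l with
  | _ n ih =>
    by_cases hc : l.length < r
    · exact ⟨[], l, by simp, by simp, hc⟩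
    · obtain ⟨L, rem, e, h1, h2⟩ := ih (l.drop r).length (by simp; omega) _ rfl
      refine ⟨l.take r :: L, rem, ?_, ?_, h2⟩
      · rw [List.flatten_cons, List.append_assoc, ← e, List.take_append_drop]
      · intro b hb
        rcases List.mem_cons.1 hb with rfl | hb
        · simp; omega
        · exact h1 b hb

theorem Fl_Fl {β : Type*} (wd : β → List α) (L : List (List β)) :
    Fl (Fl wd) L = Fl wd L.flatten := by
  induction L with
  | nil => rfl
  | cons b L ih => simp [Fl_append, ih]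

theorem prod_map_flatten {β M : Type*} [Monoid M] (φ : β → M) (L : List (List β)) :
    (L.map (fun b => (b.map φ).prod)).prod = (L.flatten.map φ).prod := by
  induction L with
  | nil => rfl
  | cons b L ih => simp [ih]

theorem b_level {M V : Type} [Monoid M] [Finite M] [AddCommGroup V] [Finite V] (ρ : LinRep M V)
    {r : ℕ} {τ : List M → V}
    (hat : ∀ X : List M, X.length = r → ∀ y : V, ∃ X1 x X2, X = X1 ++ x :: X2 ∧
      ∀ a, ρ.act (X1 ++ a :: X2).prod y + τ (X1 ++ a :: X2) = ρ.act X.prod y + τ X)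
    {G : List α → Prop} (hP : PCode id G) {φ : List α → M} {h : ℕ}
    (hφ : ∀ x, Ht h (fun u => G u ∧ φ u = x)) {Al0 Rm0 : Lab M V r → List α → Prop}
    (hAl0 : ∀ l, Ht h (Al0 l)) (hRm0 : ∀ l, Ht h (Rm0 l)) (hne : ∀ l s, Rm0 l s → s ≠ [])
    (sound0 : ∀ u v p s v' l l', G u → Al0 l p → Rm0 l' s → u ++ v = p ++ s ++ v' →
      l = l' ∧ p ++ s = u)
    (compl0 : ∀ u l, G u → ∃ p s, u = p ++ s ∧ Al0 l p ∧ Rm0 l s) (g : M) :
    Ht (h + 1) (fun w => ∃ l : List (List α), (∀ u ∈ l, G u) ∧ w = Fl id l ∧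
      (l.map φ).prod = g) := by
  have hr : 0 < r := by
    obtain ⟨X1, x, X2, e, -⟩ := hat (List.replicate r 1) (by simp) 0
    have := congrArg List.length e
    simp at this; omega
  let C : List (List α) → Prop := fun b => b.length = r ∧ ∀ u ∈ b, G u
  have hPC : PCode (Fl id) C := by
    constructor
    · intro b b' v v' hb hb' he
      obtain ⟨l'', rfl, -⟩ := hP.strip' b' b v v' hb.2 hb'.2 (by rw [hb.1, hb'.1]) he
      have h1 := hb.1
      have h2 := hb'.1
      rw [List.length_append] at h1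
      rw [List.length_eq_zero_iff.1 (show l''.length = 0 by omega), List.append_nil]
    · intro b hb he
      have := hP.eq_nil hb.2 he
      have h1 := hb.1
      rw [this] at h1
      simp at h1; omega
  have hfin : ∀ c, ({xs : List M | xs.length ≤ c}).Finite := List.finite_length_le M
  let step : List (List α) → V → V := fun b y => ρ.act (b.map φ).prod y + τ (b.map φ)
  have H : ∀ y y', Ht (h + 1) (Runs (Fl id) C step y y') := by
    refine cut_level (G := C)
      (Al := fun y p => ∃ l : Lab M V r, l.1 = y ∧ ∃ x p0, p = x ++ p0 ∧ ZL G φ l.2.1.1 x ∧ Al0 l p0)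
      (Rm := fun y' s => ∃ l : Lab M V r,
        (∀ a, ρ.act (l.2.1.1 ++ a :: l.2.1.2).prod l.1 + τ (l.2.1.1 ++ a :: l.2.1.2) = y') ∧
        ∃ s0 x, s = s0 ++ x ∧ Rm0 l s0 ∧ ZL G φ l.2.1.2 x) hPC ?_ ?_ ?_ ?_ ?_ ?_ ?_
    · refine (Ht.exSet (hfin r) (F := fun xs w => xs.length = r ∧ ZL G φ xs w)
        (fun xs _ => (Ht.const _).and' (ht_ZL hφ xs))).congr (fun w => ⟨?_, ?_⟩)
      · rintro ⟨xs, -, h1, l, h2, rfl, rfl⟩
        exact ⟨l, ⟨by simpa using h1, h2⟩, rfl⟩
      · rintro ⟨b, ⟨h1, h2⟩, rfl⟩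
        exact ⟨b.map φ, by simp [h1], by simp [h1], b, h2, rfl, rfl⟩
    · intro y y'
      refine (Ht.nil'.and' (Ht.const (y = y'))).congr (fun w => ⟨?_, ?_⟩)
      · rintro ⟨rfl, rfl⟩
        exact ⟨[], by simp, rfl, rfl⟩
      · rintro ⟨l, h1, rfl, h2⟩
        cases l with
        | nil => exact ⟨rfl, h2⟩
        | cons b l => exact absurd (h1 b (by simp)).1 (h1 b (by simp)).2
    · exact fun y => Ht.ex (fun l => (Ht.const _).and' ((ht_ZL hφ _).cat (hAl0 l)))
    · exact fun y => Ht.ex (fun l => (Ht.const _).and' ((hRm0 l).cat (ht_ZL hφ _)))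
    · rintro y s ⟨l, -, s0, x, rfl, h1, -⟩ he
      exact hne l s0 h1 (List.append_eq_nil_iff.1 he).1
    · rintro b v p s v' y y' ⟨hb, hG⟩ ⟨l, rfl, x, p0, rfl, ⟨l1, g1, rfl, e1⟩, hp⟩
        ⟨l', hy, s0, x', rfl, hs, l2, g2, rfl, e2⟩ he
      have hl := l.2.2
      have n1 : l1.length = l.2.1.1.length := by rw [← e1]; simp
      obtain ⟨b', rfl, he'⟩ := hP.strip' l1 b v _ hG g1 (by omega)
        (by rw [he, List.append_assoc, List.append_assoc])
      rw [List.length_append] at hb
      cases b' with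
      | nil => simp at hb; omega
      | cons u b' =>
        obtain ⟨rfl, e3⟩ := sound0 u (Fl id b' ++ v) p0 s0 (Fl id l2 ++ v') l l'
          (hG u (by simp)) hp hs (by simpa using he')
        have n2 : l2.length = l.2.1.2.length := by rw [← e2]; simp
        subst e3
        have he2 : Fl id b' ++ v = Fl id l2 ++ v' := by simpa using he'
        simp only [List.length_cons] at hb
        obtain ⟨l'', rfl, -⟩ := hP.strip' l2 b' v v' (fun x hx => hG x (by simp [hx])) g2
          (by omega) he2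
        rw [List.length_append] at hb
        obtain rfl := List.length_eq_zero_iff.1 (show l''.length = 0 by omega)
        refine ⟨by simp [Fl_append], ?_⟩
        rw [← hy (φ (p0 ++ s0)), ← e1, ← e2]
        simp [step]
    · rintro b y ⟨hb, hG⟩ -
      obtain ⟨X1, x, X2, e, hX⟩ := hat (b.map φ) (by simp [hb]) y
      obtain ⟨l1, b', rfl, rfl, e'⟩ := List.map_eq_append_iff.1 e
      obtain ⟨u, l2, rfl, rfl, rfl⟩ := List.map_eq_cons_iff.1 e'
      let l : Lab M V r := (y, ⟨(l1.map φ, l2.map φ), by simp at hb ⊢; omega⟩)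
      obtain ⟨p, s, rfl, hp, hs⟩ := compl0 u l (hG u (by simp))
      exact ⟨Fl id l1 ++ p, s ++ Fl id l2, by simp [Fl_append],
        ⟨l, rfl, _, p, rfl, ⟨l1, fun x hx => hG x (by simp [hx]), rfl, rfl⟩, hp⟩,
        l, hX, s, _, rfl, hs, l2, fun x hx => hG x (by simp [hx]), rfl, rfl⟩
  have hdec := decode ρ hPC (fun b => (b.map φ).prod) (fun b => τ (b.map φ)) H
  refine (Ht.ex (fun g1 : M => Ht.exSet (hfin r)
    (F := fun xs w => g1 * xs.prod = g ∧ ∃ a b, w = a ++ b ∧ _ ∧ ZL G φ xs b)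
    (fun xs _ => (Ht.const _).and' ((hdec g1).cat ((ht_ZL hφ xs).mono (by omega)))))).congr
    (fun w => ⟨?_, ?_⟩)
  · rintro ⟨g1, xs, -, rfl, a, b, rfl, ⟨L, h1, rfl, rfl⟩, l, h2, rfl, rfl⟩
    refine ⟨L.flatten ++ l, ?_, by rw [Fl_append, Fl_Fl], ?_⟩
    · intro u hu
      rcases List.mem_append.1 hu with hu | hu
      · obtain ⟨b, hb, hu⟩ := List.mem_flatten.1 hu
        exact (h1 b hb).2 u hu
      · exact h2 u hu
    · rw [List.map_append, List.prod_append, prod_map_flatten]
  · rintro ⟨l, h1, rfl, rfl⟩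
    obtain ⟨L, rem, rfl, h2, h3⟩ := chunk hr l
    refine ⟨_, rem.map φ, by simp; omega, ?_, _, _, by rw [Fl_append, ← Fl_Fl],
      ⟨L, fun b hb => ⟨h2 b hb, fun u hu => h1 u ?_⟩, rfl, rfl⟩, rem,
      fun u hu => h1 u (by simp [hu]), rfl, rfl⟩
    · rw [List.map_append, List.prod_append, prod_map_flatten]
    · exact List.mem_append_left _ (List.mem_flatten.2 ⟨b, hb, hu⟩)

end Crest.Agent.R320
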