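import Crest.Agent.R320.BZone
import Crest.Agent.R320.BLevel

/-! The top code inside one zone. -/

set_option autoImplicit false
set_option linter.unusedSectionVars false

namespace Crest.Agent.R320

theorem Acc.shift {Sl J : Type*} {al : Sl → ℕ} {kp : Sl → J} {E E' : J → ℤ → Prop} {b b' : ℤ}
    {σ : Sl} (hE : ∀ k d, E k (b + d) ↔ E' k (b' + d)) (h : Acc al kp E b σ) :
    Acc al kp E' b' σ := by
  refine ⟨(hE _ _).1 h.1, fun τ ρ ρ' h1 h2 k hk => h.2 τ ρ ρ' h1 h2 k ?_⟩
  rw [show b + al τ - al ρ + al ρ' = b + ((al τ : ℤ) - al ρ + al ρ') by ring]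
  rw [show b' + al τ - al ρ + al ρ' = b' + ((al τ : ℤ) - al ρ + al ρ') by ring] at hk
  exact (hE _ _).2 hk

theorem drop_take_congr {α : Type*} {w w' : List α} {c a b : ℕ} (h : w.take c = w'.take c)
    (hc : a + b ≤ c) : (w.drop a).take b = (w'.drop a).take b := by
  have : w.take (a + b) = w'.take (a + b) := by
    rw [← min_eq_left hc, ← List.take_take, h, List.take_take]
  rw [List.take_drop, List.take_drop, this]

namespace Ctx

variable {α : Type*} {M M' ΛA ΛB : Type} [Monoid M] [Monoid M'] {gp : ΛA → ℕ} {r : ℕ}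
  (T : Ctx α M M' ΛA ΛB gp r)

/-- The value of segment `j`, read in a word whose origin is at offset `a`. -/
def seg (a : ℕ) (w : List α) (j : ℕ) : M :=
  T.η.f ((w.drop (T.P.g j - a)).take (T.P.g (j + 1) - T.P.g j))

/-- The values of all the segments of a zone. -/
def XX (u : List α) : List M := (List.range r).map (T.seg 0 u)

theorem seg_congr {w w' : List α} {c : ℕ} (a : ℕ) {j : ℕ} (h : w.take c = w'.take c)
    (hj : T.P.g (j + 1) ≤ c) : T.seg a w j = T.seg a w' j := by
  have := T.P.gmono (Nat.le_succ j)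
  unfold seg
  rw [drop_take_congr h (by simp only [Nat.succ_eq_add_one] at this; omega)]

theorem seg_right (p s : List α) {j : ℕ} (hj : p.length ≤ T.P.g j) :
    T.seg p.length s j = T.seg 0 (p ++ s) j := by
  unfold seg
  rw [Nat.sub_zero, List.drop_append, List.drop_eq_nil_of_le hj, List.nil_append]

theorem g_le {j : ℕ} (hj : j ≤ r) : T.P.g j ≤ T.P.D := by
  rw [← T.P.gr]; exact T.P.gmono hj

theorem XX_prod (u : List α) : (T.XX u).prod = T.η.f (u.take T.P.D) := by
  have : ∀ j, ((List.range j).map (T.seg 0 u)).prod = T.η.f (u.take (T.P.g j)) := by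
    intro j
    induction j with
    | zero => simp [T.P.g0, T.η.nil]
    | succ j ih =>
      have := T.P.gmono (Nat.le_succ j)
      rw [List.range_succ, List.map_append, List.prod_append, ih]
      simp only [List.map_cons, List.map_nil, List.prod_cons, List.prod_nil, mul_one, seg,
        Nat.sub_zero]
      rw [← T.η.app, ← List.take_add]
      congr 2
      simp only [Nat.succ_eq_add_one] at this
      omega
  rw [XX, this, T.P.gr]

theorem XX_split {p : List α} (s : List α) {i m : ℕ} (hr : i + m + 1 = r)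
    (h1 : T.P.g i ≤ p.length) (h2 : p.length ≤ T.P.g (i + 1)) :
    T.XX (p ++ s) = (List.range i).map (T.seg 0 p) ++ T.seg 0 (p ++ s) i ::
      (List.range' (i + 1) m).map (T.seg p.length s) := by
  have e : List.range r = List.range i ++ i :: List.range' (i + 1) m := by
    rw [← hr, List.range_eq_range', List.range_eq_range', show i + m + 1 = i + (m + 1) by omega,
      ← List.range'_append_1, List.range'_succ]
    simp
  rw [XX, e, List.map_append, List.map_cons]
  congr 1
  · refine List.map_congr_left (fun j hj => ?_)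
    rw [List.mem_range] at hj
    exact T.seg_congr (c := p.length) 0 (by simp) ((T.P.gmono (by omega)).trans h1)
  · congr 1
    refine List.map_congr_left (fun j hj => ?_)
    rw [List.mem_range'_1] at hj
    exact (T.seg_right p s (h2.trans (T.P.gmono hj.1))).symm

theorem eta_drop_congr {w w' : List α} {c θ b : ℕ} (h : w.take c = w'.take c) (hc : θ ≤ c)
    (hb : b ≤ θ) (hψ : T.ψ.f (w.drop θ) = T.ψ.f (w'.drop θ)) :
    T.η.f (w.drop b) = T.η.f (w'.drop b) := by
  have e : ∀ x : List α, x.drop b = (x.drop b).take (θ - b) ++ x.drop θ := by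
    intro x
    conv_lhs => rw [← List.take_append_drop (θ - b) (x.drop b)]
    rw [List.drop_drop, show b + (θ - b) = θ by omega]
  rw [e w, e w', T.η.app, T.η.app, T.hη _ _ hψ, drop_take_congr h (by omega)]

theorem Ev_congr {w w' : List α} {c lo hi : ℕ} (h : w.take c = w'.take c) (hc : hi + T.K.R ≤ c)
    (he : T.K.e w ≡ T.K.e w' [MOD T.P.z]) (k : T.P.C × Bool) (d : ℤ) :
    T.Ev lo hi w k (T.K.e w + d) ↔ T.Ev lo hi w' k (T.K.e w' + d) := by
  have h1 : (T.P.q k.1 : ℤ) ∣ (T.K.e w' : ℤ) - T.K.e w := (he.of_dvd (T.P.qz k.1)).dvd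
  unfold Ev
  refine or_congr (and_congr Iff.rfl ?_) (and_congr Iff.rfl (exists_congr fun j => ?_))
  · rw [show (T.K.e w' : ℤ) + d = (T.K.e w' - T.K.e w) + (T.K.e w + d) by ring,
      dvd_add_right h1]
  · refine and_congr Iff.rfl (and_congr_right fun hj => ?_)
    rw [MkSys.mk_congr h (by omega), add_sub_cancel_left, add_sub_cancel_left]

theorem Ev_view {p s : List α} (hp : p.length ≤ T.P.D) (hs : T.K.S T.P.th s)
    (hno : ∀ j, T.P.th - T.P.D ≤ j → j < T.P.th → ¬ T.K.Mk s j) (k : T.P.C × Bool) (x : ℤ)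
    (h1 : (T.K.e (p ++ s) : ℤ) - 2 * T.P.D ≤ x) (h2 : x ≤ T.K.e (p ++ s) + 2 * T.P.D) :
    T.Ev (2 * T.P.D + 1) (T.P.th - T.P.D) s k x ↔ T.Ev (3 * T.P.D + 1) T.P.th (p ++ s) k x := by
  have hth : T.P.th = 3 * T.P.D + 1 + 3 * T.P.z := rfl
  have hb := T.P.qbig k.1
  unfold Ev
  rw [MkSys.e_append p hs] at *
  refine or_congr Iff.rfl (and_congr Iff.rfl ⟨?_, ?_⟩)
  · rintro ⟨j, a, b, hj, hd⟩
    refine ⟨p.length + j, ?_, by omega, (T.K.right p s j).2 hj, by convert hd using 1; push_cast; ring⟩
    by_contra hc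
    have := Int.le_of_dvd (by push_cast at h1; omega) hd
    push_cast at h2
    omega
  · rintro ⟨j, a, b, hj, hd⟩
    obtain ⟨j, rfl⟩ : ∃ j', j = p.length + j' := ⟨j - p.length, by omega⟩
    rw [T.K.right] at hj
    refine ⟨j, by omega, ?_, hj, by convert hd using 1; push_cast; ring⟩
    by_contra hc
    exact hno j (by omega) (by omega) hj

theorem Ev_uniq (u : List α) (k : T.P.C × Bool) (x y : ℤ)
    (hx : T.Ev (3 * T.P.D + 1) T.P.th u k x) (hy : T.Ev (3 * T.P.D + 1) T.P.th u k y)
    (h1 : x - y ≤ 4 * T.P.D) (h2 : y - x ≤ 4 * T.P.D) : x = y := by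
  have hb := T.P.qbig k.1
  have key : (T.P.q k.1 : ℤ) ∣ x - y := by
    rcases hx with ⟨a, hx⟩ | ⟨a, j, -, j2, j3, hx⟩ <;> rcases hy with ⟨b, hy⟩ | ⟨b, i, -, i2, i3, hy⟩
    · exact dvd_sub hx hy
    · simp [a] at b
    · simp [a] at b
    · obtain rfl : j = i := by
        rcases lt_trichotomy j i with h | h | h
        · have := T.K.gap j3 i3 h; omega
        · exact h
        · have := T.K.gap i3 j3 h; omega
      have := dvd_sub hx hy
      rwa [show x - T.K.e u + j - (y - T.K.e u + j) = x - y by ring] at this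
  have := Int.eq_zero_of_abs_lt_dvd key (by rw [abs_lt]; constructor <;> omega)
  omega

theorem al_inj : Function.Injective T.P.al := by
  intro a b h
  rcases T.P.B4 a a a a b b b b (by rw [h]) with h | h | h | h <;> exact h

theorem S_control {p s : List α} (hp : p.length ≤ T.P.D) (hs : T.K.S T.P.th s)
    (hno : ∀ j, T.P.th - T.P.D ≤ j → j < T.P.th → ¬ T.K.Mk s j) : T.K.S T.P.th (p ++ s) := by
  have hth : T.P.th = 3 * T.P.D + 1 + 3 * T.P.z := rfl
  have := hs.1
  refine hs.append (by omega) (fun j a b _ => ?_)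
  rw [show j = p.length + (j - p.length) by omega, T.K.right]
  exact hno _ (by omega) (by omega)

end Ctx

end Crest.Agent.R320
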