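import Crest.Agent.R320.Marker

/-! Zones: words that end with their first marker at a position at least `θ`. -/

set_option autoImplicit false

namespace Crest.Agent.R320

variable {α : Type*} {M : Type*} [Monoid M]

namespace MkSys

variable {ψ : Mor α M} {N : ℕ} (K : MkSys ψ N)

/-- Position of the final marker window. -/
def e (u : List α) : ℕ := u.length - K.R

/-- `u` ends with its first marker window starting at a position at least `θ`. -/
def S (θ : ℕ) (u : List α) : Prop :=
  θ ≤ K.e u ∧ u.length = K.e u + K.R ∧ K.Mk u (K.e u) ∧ ∀ j, θ ≤ j → j < K.e u → ¬ K.Mk u j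

variable {K}

theorem mk_append {u : List α} (v : List α) {j : ℕ} (h : K.Mk u j) : K.Mk (u ++ v) j :=
  (K.left v (K.len h)).2 h

theorem mk_drop {w : List α} {a : ℕ} (ha : a ≤ w.length) (j : ℕ) :
    K.Mk (w.drop a) j ↔ K.Mk w (a + j) := by
  have := K.right (w.take a) (w.drop a) j
  rw [List.take_append_drop, List.length_take, min_eq_left ha] at this
  exact this.symm

theorem mk_take {w : List α} {c j : ℕ} (h : j + K.R ≤ c) : K.Mk (w.take c) j ↔ K.Mk w j := by
  by_cases hc : c ≤ w.length
  · have := K.left (u := w.take c) (w.drop c) (j := j) (by simp; omega)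
    rw [List.take_append_drop] at this
    exact this.symm
  · rw [List.take_of_length_le (by omega)]

theorem mk_congr {w w' : List α} {c j : ℕ} (hw : w.take c = w'.take c) (h : j + K.R ≤ c) :
    K.Mk w j ↔ K.Mk w' j := by
  rw [← mk_take h, hw, mk_take h]

theorem S.intro' {θ s : ℕ} {u : List α} (h1 : θ ≤ s) (h2 : u.length = s + K.R) (h3 : K.Mk u s)
    (h4 : ∀ j, θ ≤ j → j < s → ¬ K.Mk u j) : K.S θ u := by
  have : K.e u = s := by unfold e; omega
  unfold S
  rw [this]
  exact ⟨h1, h2, h3, h4⟩

theorem S.le_e {θ j : ℕ} {u : List α} (h : K.S θ u) (hj : K.Mk u j) : j ≤ K.e u := by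
  have := K.len hj
  have := h.2.1
  omega

theorem S.ne_nil {θ : ℕ} {u : List α} (h : K.S θ u) : u ≠ [] := by
  rintro rfl
  have := h.2.1
  have := K.Rpos
  simp at *
  omega

theorem S.pref {θ : ℕ} {u u' v v' : List α} (h : K.S θ u) (h' : K.S θ u')
    (he : u ++ v = u' ++ v') : u = u' := by
  have key : ∀ {u u' v v' : List α}, K.S θ u → K.S θ u' → u ++ v = u' ++ v' →
      K.e u ≤ K.e u' := by
    intro u u' v v' h h' he
    by_contra hc
    apply h.2.2.2 (K.e u') h'.1 (by omega)
    have := mk_append v' h'.2.2.1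
    rw [← he] at this
    exact (K.left v (by have := h.2.1; omega)).1 this
  have e1 := key h h' he
  have e2 := key h' h he.symm
  exact (List.append_inj he (by have := h.2.1; have := h'.2.1; omega)).1

theorem e_append {θ : ℕ} (p : List α) {r : List α} (h : K.S θ r) :
    K.e (p ++ r) = p.length + K.e r := by
  have := h.2.1
  unfold e at *
  simp; omega

theorem S.append {θ θ' : ℕ} {p r : List α} (h : K.S θ' r) (h1 : θ ≤ p.length + K.e r)
    (h2 : ∀ j, θ ≤ j → j < p.length + θ' → j < p.length + K.e r → ¬ K.Mk (p ++ r) j) :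
    K.S θ (p ++ r) := by
  refine S.intro' h1 (by have := h.2.1; simp; omega) ((K.right p r _).2 h.2.2.1) ?_
  intro j hj hj'
  by_cases hc : j < p.length + θ'
  · exact h2 j hj hc hj'
  · rw [show j = p.length + (j - p.length) by omega, K.right]
    exact h.2.2.2 _ (by omega) (by omega)

theorem e_drop {θ a : ℕ} {u : List α} (h : K.S θ u) (ha : a ≤ K.e u) :
    K.e (u.drop a) = K.e u - a := by
  have := h.2.1
  unfold e at *
  simp; omega

theorem S.drop {θ θ' a : ℕ} {u : List α} (h : K.S θ u) (h1 : a + θ' ≤ K.e u)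
    (h2 : ∀ j, a + θ' ≤ j → j < θ → ¬ K.Mk u j) : K.S θ' (u.drop a) := by
  have hl := h.2.1
  refine S.intro' (s := K.e u - a) (by omega) (by simp; omega) ?_ ?_
  · rw [mk_drop (by omega), show a + (K.e u - a) = K.e u by omega]
    exact h.2.2.1
  · intro j hj hj'
    rw [mk_drop (by omega)]
    by_cases hc : a + j < θ
    · exact h2 _ (by omega) hc
    · exact h.2.2.2 _ (by omega) (by omega)

theorem ht_S0 [Finite α] : Ht 1 (K.S 0) := by
  have hb : Ht 1 (fun b : List α => b.length = K.R ∧ K.Mk b 0) := Ht.ofLen K.R (fun _ h => h.1.le)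
  have h1 := Ht.true'.cat hb
  refine (h1.and' (h1.cat Ht.nil'.not').not').congr (fun w => ?_)
  constructor
  · rintro ⟨⟨a, b, rfl, -, hb1, hb2⟩, h2⟩
    refine S.intro' (s := a.length) (by omega) (by simp; omega) ((K.right a b 0).2 hb2) ?_
    intro j _ hj hm
    apply h2
    have hl : j + K.R ≤ (a ++ b).length := K.len hm
    refine ⟨(a ++ b).take (j + K.R), (a ++ b).drop (j + K.R), by simp, ⟨(a ++ b).take j,
      ((a ++ b).drop j).take K.R, by rw [List.take_add], trivial, by simp at hl ⊢; omega, ?_⟩, ?_⟩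
    · rw [mk_take (by omega), mk_drop (by omega)]
      exact hm
    · intro h0
      have := congrArg List.length h0
      simp at this; omega
  · intro h
    have hl := h.2.1
    refine ⟨⟨w.take (K.e w), w.drop (K.e w), by simp, trivial, by simp; omega, ?_⟩, ?_⟩
    · rw [mk_drop (by omega)]; exact h.2.2.1
    · rintro ⟨x, c, rfl, ⟨a, b, rfl, -, hb1, hb2⟩, hc⟩
      have hc' : 0 < c.length := List.length_pos_iff.2 hc
      apply h.2.2.2 a.length (by omega) (by simp only [List.length_append] at hl; omega)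
      exact mk_append c ((K.right a b 0).2 hb2)

theorem thin_S0 [Finite α] [Finite M] : Thin ψ (K.S 0) := by
  refine (K.thin.cat (Thin.ofLen 1)).mono (fun w h => ?_)
  have hl := h.2.1
  have hR := K.Rpos
  refine ⟨w.take (w.length - 1), w.drop (w.length - 1), by simp, fun j hj => ?_, by simp; omega⟩
  have h1 := K.len hj
  simp at h1
  rw [mk_take (by omega)] at hj
  exact h.2.2.2 j (by omega) (by omega) hj

/-- A set of zones that is determined by a bounded prefix and the value of the part after
position `θ` has height at most one. -/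
theorem ht_of_inv [Finite α] [Finite M] {θ : ℕ} (c : ℕ) {L : List α → Prop}
    (hL : ∀ u, L u → K.S θ u)
    (hinv : ∀ u u', K.S θ u → K.S θ u' → u.take c = u'.take c →
      ψ.f (u.drop θ) = ψ.f (u'.drop θ) → L u → L u') : Ht 1 L := by
  have hfin : ({v : List α | v.length ≤ c} ×ˢ (Set.univ : Set M)).Finite :=
    (List.finite_length_le α c).prod Set.finite_univ
  refine (Ht.exSet hfin (F := fun vg w => (∃ u, L u ∧ u.take c = vg.1 ∧ ψ.f (u.drop θ) = vg.2) ∧
    w.take c = vg.1 ∧ ∃ h t, w = h ++ t ∧ h.length = θ ∧ (K.S 0 t ∧ ψ.f t = vg.2))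
    (fun vg _ => (Ht.const _).and' ((Ht.take c _).and' ((Ht.ofLen θ (fun _ h => h.le)).cat
      (thin_S0.ht ht_S0 _))))).congr (fun w => ?_)
  constructor
  · rintro ⟨vg, -, ⟨u, h1, h2, h3⟩, h4, h, t, rfl, h5, h6, h7⟩
    refine hinv u _ (hL u h1) (h6.append (by omega) (fun j _ _ _ => by omega)) (by rw [h2, h4])
      ?_ h1
    rw [h3, ← h5, List.drop_left, h7]
  · intro h
    have hS := hL w h
    have hl := hS.2.1
    have h1 := hS.1
    exact ⟨(w.take c, ψ.f (w.drop θ)), by simp, ⟨w, h, rfl, rfl⟩, rfl, w.take θ, w.drop θ, by simp,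
      by simp; omega, hS.drop (by omega) (fun j _ _ => by omega), rfl⟩

theorem thin_tail [Finite α] [Finite M] (θ : ℕ) :
    Thin ψ (fun t => ∀ j, θ ≤ j → ¬ K.Mk t j) := by
  refine ((Thin.ofLen θ).cat K.thin).mono (fun w h => ?_)
  refine ⟨w.take θ, w.drop θ, by simp, by simp, fun j hj => ?_⟩
  have h1 := K.len hj
  have hR := K.Rpos
  simp at h1
  rw [mk_drop (by omega)] at hj
  exact h _ (by omega) hj

theorem decomp (θ : ℕ) (w : List α) : ∃ (l : List (List α)) (t : List α),
    w = l.flatten ++ t ∧ (∀ u ∈ l, K.S θ u) ∧ ∀ j, θ ≤ j → ¬ K.Mk t j := by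
  induction hn : w.length using Nat.strong_induction_on generalizing w with
  | _ n ih =>
    by_cases hex : ∃ j, θ ≤ j ∧ K.Mk w j
    · classical
      obtain ⟨h1, h2⟩ := Nat.find_spec hex
      set s := Nat.find hex
      have hl := K.len h2
      have hR := K.Rpos
      obtain ⟨l, t, e1, hl', ht⟩ := ih (w.drop (s + K.R)).length (by simp; omega) _ rfl
      refine ⟨w.take (s + K.R) :: l, t, ?_, ?_, ht⟩
      · rw [List.flatten_cons, List.append_assoc, ← e1, List.take_append_drop]
      · intro u hu
        rcases List.mem_cons.1 hu with rfl | hu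
        · refine S.intro' h1 (by simp; omega) ((mk_take le_rfl).2 h2) (fun j hj hj' hm => ?_)
          rw [mk_take (by omega)] at hm
          exact Nat.find_min hex hj' ⟨hj, hm⟩
        · exact hl' u hu
    · exact ⟨[], w, by simp, by simp, fun j hj hm => hex ⟨j, hj, hm⟩⟩

end MkSys

end Crest.Agent.R320
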