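import Crest.Agent.R320.Par
import Crest.Agent.R320.Zone

/-! The middle code inside one zone. -/

set_option autoImplicit false

namespace Crest.Agent.R320

/-- The threshold that defines the end of a zone. -/
def Par.th {ΛA ΛB : Type} {gp : ΛA → ℕ} {r : ℕ} (P : Par ΛA ΛB gp r) : ℕ := 3 * P.D + 1 + 3 * P.z

/-- All the data of the construction that do not depend on the thread spaces. -/
structure Ctx (α : Type*) (M M' ΛA ΛB : Type) [Monoid M] [Monoid M'] (gp : ΛA → ℕ) (r : ℕ) where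
  P : Par ΛA ΛB gp r
  η : Mor α M
  ψ : Mor α M'
  hη : ∀ x x', ψ.f x = ψ.f x' → η.f x = η.f x'
  hz : ∀ x x', ψ.f x = ψ.f x' → x.length ≡ x'.length [MOD P.z]
  K : MkSys ψ (P.th + P.D)

namespace Ctx

variable {α : Type*} {M M' ΛA ΛB : Type} [Monoid M] [Monoid M'] {gp : ΛA → ℕ} {r : ℕ}
  (T : Ctx α M M' ΛA ΛB gp r)

/-- The arithmetic events seen in the word `w`, for near markers in `[lo, hi)`. -/
def Ev (lo hi : ℕ) (w : List α) (k : T.P.C × Bool) (Γ : ℤ) : Prop :=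
  (k.2 = false ∧ (T.P.q k.1 : ℤ) ∣ Γ) ∨
    (k.2 = true ∧ ∃ j, lo ≤ j ∧ j < hi ∧ T.K.Mk w j ∧ (T.P.q k.1 : ℤ) ∣ Γ - T.K.e w + j)

/-- Some event holds in the zone `u`. -/
def Event (u : List α) : Prop := ∃ k, T.Ev (3 * T.P.D + 1) T.P.th u k (T.K.e u)

/-- Zones served by the top code. -/
def GA (u : List α) : Prop :=
  T.Event u ∧ ∀ j, T.P.th - T.P.D ≤ j → j < T.P.th + T.P.D → ¬ T.K.Mk u j

/-- Zones served by the middle code. -/
def GB (u : List α) : Prop := T.K.S T.P.th u ∧ ¬ T.GA u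

theorem efree (c : T.P.C) {x : ℕ} (h1 : T.P.th - T.P.D ≤ x) (h2 : x < T.P.th + T.P.D) :
    ¬ T.P.q c ∣ x := by
  intro h
  have hb := T.P.qbig c
  unfold Par.th at h1 h2
  have h3 : T.P.q c ∣ x - 3 * T.P.z := Nat.dvd_sub h (Dvd.dvd.mul_left (T.P.qz c) 3)
  have := Nat.le_of_dvd (by omega) h3
  omega

theorem GA_of {u v : List α} (hu : T.K.S T.P.th u) {m : ℕ} {c : T.P.C} (hm : T.K.Mk (u ++ v) m)
    (hβ : 3 * T.P.D + 1 ≤ m) (hq : T.P.q c ∣ m)
    (hno : ∀ j, T.P.th - T.P.D ≤ j → j < m → ¬ T.K.Mk (u ++ v) j) : T.GA u := by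
  have hl := hu.2.1
  have h1 := hu.1
  have hqz : (T.P.q c : ℤ) ∣ (m : ℤ) := by exact_mod_cast hq
  by_cases hc : T.P.th ≤ m
  · have e : T.K.e u = m := by
      by_contra hne
      rcases lt_or_gt_of_ne hne with h | h
      · exact hno _ (by omega) h (MkSys.mk_append v hu.2.2.1)
      · exact hu.2.2.2 m hc h ((T.K.left v (by omega)).1 hm)
    refine ⟨⟨(c, false), Or.inl ⟨rfl, by rw [e]; exact hqz⟩⟩, fun j a b hj => ?_⟩
    have := hu.le_e hj
    by_cases hjm : j = m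
    · exact T.efree c a b (hjm ▸ hq)
    · exact hno j a (by omega) (MkSys.mk_append v hj)
  · have hm' : T.K.Mk u m := (T.K.left v (by omega)).1 hm
    refine ⟨⟨(c, true), Or.inr ⟨rfl, m, hβ, by omega, hm', by simpa using hqz⟩⟩,
      fun j a b hj => ?_⟩
    rcases lt_trichotomy j m with h | h | h
    · exact hno j a h (MkSys.mk_append v hj)
    · exact T.efree c a b (h ▸ hq)
    · have := T.K.gap hm' hj h
      omega

/-- Left parts of a middle cut. -/
def AlB0 (l : ΛB) (p : List α) : Prop :=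
  (T.P.z ≤ p.length ∧ p.length < T.P.z + T.P.z0 ∧ ∀ c, T.P.U (l, none) c → T.P.q c ∣ p.length) ∨
    ∃ i, p.length = T.P.aex l i

/-- Right parts of a middle cut, general labels. -/
def RmG (l : ΛB) (s : List α) : Prop :=
  T.K.S (T.P.th - T.P.z) s ∧
    (∀ j, T.P.th - T.P.z - T.P.z0 - T.P.D ≤ j → j < T.P.th - T.P.z → ¬ T.K.Mk s j) ∧
    ∀ c, T.P.W (l, none) c → T.P.q c ∣ T.K.e s

/-- Right parts of a middle cut, exact labels. -/
def RmE (l : ΛB) (i : Fin (2 * T.P.z0 + T.P.D)) (s : List α) : Prop :=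
  T.K.S (T.P.th - T.P.aex l i) s ∧ T.K.Mk s (T.P.th - T.P.z0 - T.P.D + i - T.P.aex l i)

/-- Right parts of a middle cut. -/
def RmB0 (l : ΛB) (s : List α) : Prop := T.RmG l s ∨ ∃ i, T.RmE l i s

theorem soundB0 {u v p s v' : List α} {l l' : ΛB} (hu : T.GB u) (hp : T.AlB0 l p)
    (hs : T.RmB0 l' s) (he : u ++ v = p ++ s ++ v') : l = l' ∧ p ++ s = u := by
  have hz0 := T.P.z0z
  have hDz := T.P.Dz
  have hth : T.P.th = 3 * T.P.D + 1 + 3 * T.P.z := rfl
  have left : ∃ o, (∀ c, T.P.U (l, o) c → T.P.q c ∣ p.length) ∧ p.length < T.P.z + T.P.z0 ∧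
      (o = none → T.P.z ≤ p.length) ∧ ∀ i, o = some i → p.length = T.P.aex l i := by
    rcases hp with ⟨h1, h2, h3⟩ | ⟨i, hi⟩
    · exact ⟨none, h3, h2, fun _ => h1, by simp⟩
    · refine ⟨some i, fun c hc => hi ▸ T.P.aexU l i c hc, ?_, by simp, by simp [hi]⟩
      have := T.P.aex_lt l i
      omega
  obtain ⟨o, hU, hlt, ho1, ho2⟩ := left
  have contra : ∀ o' b, (l, o) ≠ (l', o') → (∀ c, T.P.W (l', o') c → T.P.q c ∣ b) → T.K.Mk s b →
      3 * T.P.D + 1 ≤ b →
      (∀ j, T.P.th - T.P.D ≤ j → j < p.length + b → ¬ T.K.Mk (p ++ s ++ v') j) → False := by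
    intro o' b hne hW hb hβ hno
    obtain ⟨c, c1, c2⟩ := T.P.cross _ _ hne
    refine hu.2 (T.GA_of (v := v) (m := p.length + b) (c := c) hu.1 ?_ (by omega)
      (Dvd.dvd.add (hU c c1) (hW c c2)) (by rw [he]; exact hno))
    rw [he]
    exact MkSys.mk_append v' ((T.K.right p s b).2 hb)
  have fin : T.K.S T.P.th (p ++ s) → p ++ s = u := fun h => h.pref hu.1 he.symm
  rcases hs with ⟨h1, h2, h3⟩ | ⟨i, h1, h2⟩
  · have hl := h1.2.1
    have he1 := h1.1
    have hno : ∀ j, T.P.th - T.P.D ≤ j → j < p.length + T.K.e s → ¬ T.K.Mk (p ++ s) j := by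
      intro j a b
      rw [show j = p.length + (j - p.length) by omega, T.K.right]
      by_cases hc : j - p.length < T.P.th - T.P.z
      · exact h2 _ (by omega) hc
      · exact h1.2.2.2 _ (by omega) (by omega)
    by_cases hne : (l, o) = (l', none)
    · obtain ⟨rfl, rfl⟩ := Prod.mk.inj hne
      have := ho1 rfl
      exact ⟨rfl, fin (h1.append (by omega) (fun j a _ b => hno j (by omega) b))⟩
    · refine (contra none (T.K.e s) hne h3 h1.2.2.1 (by omega) (fun j a b => ?_)).elim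
      rw [T.K.left v' (by simp; omega)]
      exact hno j a b
  · have hi := i.2
    have ha := T.P.aex_lt l' i
    by_cases hne : (l, o) = (l', some i)
    · obtain ⟨rfl, rfl⟩ := Prod.mk.inj hne
      have := ho2 i rfl
      have he1 := h1.1
      exact ⟨rfl, fin (h1.append (by omega) (fun j a b _ => by omega))⟩
    · refine (contra (some i) _ hne (fun c hc => ?_) h2 (by omega) (fun j a b hj => ?_)).elim
      · exact (Nat.modEq_iff_dvd' (by omega)).1 (T.P.aexW l' i c hc)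
      · have := T.K.gap hj (MkSys.mk_append v' ((T.K.right p s _).2 h2)) b
        omega

theorem complB0 {u : List α} (hu : T.K.S T.P.th u) (l : ΛB) :
    ∃ p s, u = p ++ s ∧ T.AlB0 l p ∧ T.RmB0 l s := by
  have hz0 := T.P.z0z
  have hDz := T.P.Dz
  have hth : T.P.th = 3 * T.P.D + 1 + 3 * T.P.z := rfl
  have hl := hu.2.1
  have h1 := hu.1
  by_cases hex : ∃ j, T.P.th - T.P.z0 - T.P.D ≤ j ∧ j < T.P.th + T.P.z0 ∧ T.K.Mk u j
  · obtain ⟨j, j1, j2, j3⟩ := hex
    let i : Fin (2 * T.P.z0 + T.P.D) := ⟨j - (T.P.th - T.P.z0 - T.P.D), by omega⟩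
    have hi : (i : ℕ) = j - (T.P.th - T.P.z0 - T.P.D) := rfl
    have ha := T.P.aex_lt l i
    refine ⟨u.take (T.P.aex l i), u.drop (T.P.aex l i), by simp, Or.inr ⟨i, by simp; omega⟩,
      Or.inr ⟨i, hu.drop (by omega) (fun j a b => by omega), ?_⟩⟩
    rw [MkSys.mk_drop (by omega)]
    convert j3 using 1
    omega
  · push Not at hex
    have h2 : T.P.th + T.P.z0 ≤ T.K.e u := by
      by_contra hc
      exact hex _ (by omega) (by omega) hu.2.2.1
    obtain ⟨a, a1, a2, a3, a4⟩ := T.P.gen l (T.K.e u)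
    have hp : (u.take a).length = a := by simp; omega
    refine ⟨u.take a, u.drop a, by simp, Or.inl (by rw [hp]; exact ⟨a1, a2, a3⟩),
      Or.inl ⟨hu.drop (by omega) (fun j a b => by omega), fun j b1 b2 => ?_, fun c hc => ?_⟩⟩
    · rw [MkSys.mk_drop (by omega)]
      exact hex _ (by omega) (by omega)
    · rw [MkSys.e_drop hu (by omega)]
      exact (Nat.modEq_iff_dvd' (by omega)).1 (a4 c hc)

theorem e_modEq {θ θ' : ℕ} {u u' : List α} (hu : T.K.S θ u) (hu' : T.K.S θ u') (hθ : θ' ≤ θ)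
    (h : T.ψ.f (u.drop θ') = T.ψ.f (u'.drop θ')) : T.K.e u ≡ T.K.e u' [MOD T.P.z] := by
  have h1 := (T.hz _ _ h).add_right θ'
  have a := hu.1
  have a' := hu'.1
  have b := hu.2.1
  have b' := hu'.2.1
  simp only [List.length_drop] at h1
  rw [show u.length - θ' + θ' = T.K.e u + T.K.R by omega,
    show u'.length - θ' + θ' = T.K.e u' + T.K.R by omega] at h1
  exact Nat.ModEq.add_right_cancel' _ h1

variable [Finite α] [Finite M']

theorem ht_AlB0 (l : ΛB) : Ht 1 (T.AlB0 l) := by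
  refine Ht.ofLen (T.P.z + T.P.z0) ?_
  rintro p (h | ⟨i, hi⟩)
  · omega
  · have := T.P.aex_lt l i
    omega

theorem ht_RmB0 (l : ΛB) : Ht 1 (T.RmB0 l) := by
  refine Ht.or' ?_ (Ht.ex (fun i => ?_))
  · refine MkSys.ht_of_inv (K := T.K) (θ := T.P.th - T.P.z) (T.P.th + T.K.R) (fun u h => h.1) ?_
    rintro u u' hu hu' h1 h2 ⟨-, h3, h4⟩
    refine ⟨hu', fun j a b => ?_, fun c hc => ?_⟩
    · rw [← MkSys.mk_congr h1 (by omega)]
      exact h3 j a b
    · exact (((T.e_modEq hu hu' le_rfl h2).of_dvd (T.P.qz c)).dvd_iff dvd_rfl).1 (h4 c hc)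
  · refine MkSys.ht_of_inv (K := T.K) (θ := T.P.th - T.P.aex l i)
      (T.P.th + 2 * T.P.z0 + T.P.D + T.K.R) (fun u h => h.1) ?_
    rintro u u' hu hu' h1 h2 ⟨-, h3⟩
    refine ⟨hu', ?_⟩
    have := i.2
    rw [← MkSys.mk_congr h1 (by omega)]
    exact h3

theorem RmB0_ne {l : ΛB} {s : List α} (h : T.RmB0 l s) : s ≠ [] := by
  rcases h with h | ⟨i, h⟩
  · exact h.1.ne_nil
  · exact h.1.ne_nil

end Ctx

end Crest.Agent.R320
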