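import Crest.Agent.R320.Ht

/-! One star level: passing a state through cuts inside blocks of a prefix code. -/

set_option autoImplicit false

namespace Crest.Agent.R320

variable {α β Y : Type*}

/-- The word spelled by a list of blocks. -/
def Fl (wd : β → List α) (l : List β) : List α := (l.map wd).flatten

@[simp] theorem Fl_nil (wd : β → List α) : Fl wd [] = [] := rfl

@[simp] theorem Fl_cons (wd : β → List α) (u : β) (l : List β) :
    Fl wd (u :: l) = wd u ++ Fl wd l := rfl

theorem Fl_append (wd : β → List α) (l l' : List β) :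
    Fl wd (l ++ l') = Fl wd l ++ Fl wd l' := by simp [Fl]

theorem Fl_id (l : List (List α)) : Fl id l = l.flatten := by simp [Fl]

/-- The state reached after a list of blocks. -/
def run (step : β → Y → Y) (l : List β) (y : Y) : Y := l.foldl (fun y u => step u y) y

@[simp] theorem run_nil (step : β → Y → Y) (y : Y) : run step [] y = y := rfl

@[simp] theorem run_cons (step : β → Y → Y) (u : β) (l : List β) (y : Y) :
    run step (u :: l) y = run step l (step u y) := rfl

theorem run_append (step : β → Y → Y) (l l' : List β) (y : Y) :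
    run step (l ++ l') y = run step l' (run step l y) := by simp [run]

/-- Words spelled by blocks of `C` that lead from `y` to `y'`. -/
def Runs (wd : β → List α) (C : β → Prop) (step : β → Y → Y) (y y' : Y) (w : List α) : Prop :=
  ∃ l : List β, (∀ u ∈ l, C u) ∧ w = Fl wd l ∧ run step l y = y'

/-- The blocks of `C` form a prefix code. -/
structure PCode (wd : β → List α) (C : β → Prop) : Prop where
  pf : ∀ u u' v v', C u → C u' → wd u ++ v = wd u' ++ v' → u = u'
  ne : ∀ u, C u → wd u ≠ []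

theorem PCode.mono {wd : β → List α} {C C' : β → Prop} (h : PCode wd C) (hC : ∀ u, C' u → C u) :
    PCode wd C' :=
  ⟨fun u u' v v' a b => h.pf u u' v v' (hC u a) (hC u' b), fun u a => h.ne u (hC u a)⟩

theorem PCode.strip' {wd : β → List α} {C : β → Prop} (h : PCode wd C) :
    ∀ (l' l : List β) (v v' : List α), (∀ u ∈ l, C u) → (∀ u ∈ l', C u) →
      l'.length ≤ l.length → Fl wd l ++ v = Fl wd l' ++ v' →
      ∃ l'', l = l' ++ l'' ∧ Fl wd l'' ++ v = v' := by
  intro l'
  induction l' with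
  | nil => intro l v v' _ _ _ he; exact ⟨l, rfl, by simpa using he⟩
  | cons u' l' ih =>
    intro l v v' hl hl' hlen he
    cases l with
    | nil => simp at hlen
    | cons u l =>
      simp only [Fl_cons, List.append_assoc] at he
      obtain rfl := h.pf u u' _ _ (hl u (by simp)) (hl' u' (by simp)) he
      obtain ⟨l'', rfl, e⟩ := ih l v v' (fun x hx => hl x (by simp [hx]))
        (fun x hx => hl' x (by simp [hx])) (by simpa using hlen) (List.append_cancel_left he)
      exact ⟨l'', rfl, e⟩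

theorem PCode.eq_nil {wd : β → List α} {C : β → Prop} (h : PCode wd C) {l : List β}
    (hl : ∀ u ∈ l, C u) (he : Fl wd l = []) : l = [] := by
  cases l with
  | nil => rfl
  | cons u l =>
    simp only [Fl_cons, List.append_eq_nil_iff] at he
    exact absurd he.1 (h.ne u (hl u (by simp)))

theorem PCode.strip {wd : β → List α} {C : β → Prop} (h : PCode wd C) (l' l : List β)
    (v : List α) (hl : ∀ u ∈ l, C u) (hl' : ∀ u ∈ l', C u) (he : Fl wd l = Fl wd l' ++ v) :
    ∃ l'', l = l' ++ l'' ∧ Fl wd l'' = v := by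
  by_cases hc : l'.length ≤ l.length
  · simpa using h.strip' l' l [] v hl hl' hc (by simpa using he)
  · obtain ⟨l'', rfl, e⟩ := h.strip' l l' v [] hl' hl (by omega) (by simpa using he.symm)
    simp only [List.append_eq_nil_iff] at e
    have := h.eq_nil (fun u hu => hl' u (by simp [hu])) e.1
    subst this
    simp at hc

theorem PCode.uniq {wd : β → List α} {C : β → Prop} (h : PCode wd C) {l l' : List β}
    (hl : ∀ u ∈ l, C u) (hl' : ∀ u ∈ l', C u) (he : Fl wd l = Fl wd l') : l = l' := by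
  obtain ⟨l'', rfl, e⟩ := h.strip l' l [] hl hl' (by simpa using he)
  rw [h.eq_nil (fun u hu => hl u (by simp [hu])) e, List.append_nil]

theorem ht_star_blocks {h : ℕ} {wd : β → List α} {C : β → Prop}
    (hC : Ht h (fun w => ∃ u, C u ∧ w = wd u)) :
    Ht (h + 1) (fun w => ∃ l : List β, (∀ u ∈ l, C u) ∧ w = Fl wd l) := by
  refine hC.star.congr (fun w => ?_)
  constructor
  · rintro ⟨l, rfl, hl⟩
    induction l with
    | nil => exact ⟨[], by simp, rfl⟩
    | cons a l ih =>
      obtain ⟨l', h1, h2⟩ := ih (fun u hu => hl u (by simp [hu]))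
      obtain ⟨u, hu, rfl⟩ := hl a (by simp)
      exact ⟨u :: l', by simpa [hu] using h1, by simp [h2]⟩
  · rintro ⟨l, hl, rfl⟩
    refine ⟨l.map wd, rfl, fun x hx => ?_⟩
    obtain ⟨u, hu, rfl⟩ := List.mem_map.1 hx
    exact ⟨u, hl u hu, rfl⟩

theorem cut_level [Finite Y] {h : ℕ} {wd : β → List α} {C G : β → Prop} {step : β → Y → Y}
    {Al Rm : Y → List α → Prop} (hP : PCode wd C)
    (hC : Ht h (fun w => ∃ u, C u ∧ w = wd u))
    (hX : ∀ y y', Ht h (Runs wd (fun u => C u ∧ ¬ G u) step y y'))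
    (hAl : ∀ y, Ht h (Al y)) (hRm : ∀ y, Ht h (Rm y)) (rne : ∀ y r, Rm y r → r ≠ [])
    (sound : ∀ u v p r v' y y', C u → Al y p → Rm y' r → wd u ++ v = p ++ r ++ v' →
      p ++ r = wd u ∧ step u y = y')
    (complete : ∀ u y, C u → G u → ∃ p r, wd u = p ++ r ∧ Al y p ∧ Rm (step u y) r)
    (y y' : Y) : Ht (h + 1) (Runs wd C step y y') := by
  set X := Runs wd (fun u => C u ∧ ¬ G u) step with hXd
  let Kf : List α → Prop := fun w => ∃ yy : Y × Y, ∃ r x, w = r ++ x ∧ Rm yy.1 r ∧
    ∃ x' p, x = x' ++ p ∧ X yy.1 yy.2 x' ∧ Al yy.2 p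
  have hK : Ht h Kf := Ht.ex (fun yy => (hRm _).cat ((hX _ _).cat (hAl _)))
  let Parse : Y → List α → Prop := fun y w => X y y' w ∨ ∃ yy : Y × Y, ∃ a b, w = a ++ b ∧
    (∃ x p, a = x ++ p ∧ X y yy.1 x ∧ Al yy.1 p) ∧ ∃ k c, b = k ++ c ∧
      (∃ ks : List (List α), k = ks.flatten ∧ ∀ u ∈ ks, Kf u) ∧
      ∃ r x, c = r ++ x ∧ Rm yy.2 r ∧ X yy.2 y' x
  have hParse : Ht (h + 1) (Parse y) :=
    ((hX _ _).mono (by omega)).or' (Ht.ex (fun yy => (((hX _ _).cat (hAl _)).mono (by omega)).cat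
      (hK.star.cat (((hRm _).cat (hX _ _)).mono (by omega)))))
  have hstep : ∀ (l : List β) (p r v : List α) (y1 y2 : Y), (∀ u ∈ l, C u) → Al y1 p → Rm y2 r →
      Fl wd l = p ++ r ++ v → ∃ u l1, l = u :: l1 ∧ step u y1 = y2 ∧ Fl wd l1 = v := by
    intro l p r v y1 y2 hl hp hr he
    cases l with
    | nil =>
      simp only [Fl_nil] at he
      have := congrArg List.length he
      have := List.length_pos_iff.2 (rne _ _ hr)
      simp at *; omega
    | cons u l1 =>
      obtain ⟨e1, e2⟩ := sound u _ p r v y1 y2 (hl u (by simp)) hp hr he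
      refine ⟨u, l1, rfl, e2, ?_⟩
      rw [Fl_cons, e1] at he
      exact List.append_cancel_left he
  have hsound : ∀ (ks : List (List α)) (l : List β) (p r x : List α) (y1 y2 : Y),
      (∀ u ∈ ks, Kf u) → (∀ u ∈ l, C u) → Al y1 p → Rm y2 r → X y2 y' x →
      Fl wd l = p ++ (ks.flatten ++ (r ++ x)) → run step l y1 = y' := by
    intro ks
    induction ks with
    | nil =>
      rintro l p r x y1 y2 - hl hp hr ⟨lx, h1, rfl, h2⟩ he
      obtain ⟨u, l1, rfl, e1, e2⟩ := hstep l p r _ y1 y2 hl hp hr (by simpa using he)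
      rw [hP.uniq (fun u hu => hl u (by simp [hu])) (fun u hu => (h1 u hu).1) e2]
      rw [run_cons, e1, h2]
    | cons k ks ih =>
      intro l p r x y1 y2 hks hl hp hr hx he
      obtain ⟨yy, r1, x0, rfl, hr1, x1, p1, rfl, ⟨lx, h1, rfl, h2⟩, hp1⟩ := hks k (by simp)
      obtain ⟨u, l1, rfl, e1, e2⟩ := hstep l p r1 (Fl wd lx ++ (p1 ++ (ks.flatten ++ (r ++ x))))
        y1 yy.1 hl hp hr1 (by simpa using he)
      obtain ⟨l2, rfl, e3⟩ := hP.strip lx l1 _ (fun u hu => hl u (by simp [hu]))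
        (fun u hu => (h1 u hu).1) e2
      rw [run_cons, e1, run_append, h2]
      exact ih l2 p1 r x yy.2 y2 (fun u hu => hks u (by simp [hu]))
        (fun u hu => hl u (by simp [hu])) hp1 hr hx e3
  have hcomp : ∀ (l : List β) (y0 : Y), (∀ u ∈ l, C u) → run step l y0 = y' →
      Parse y0 (Fl wd l) := by
    intro l
    induction l with
    | nil => intro y0 _ he; exact Or.inl ⟨[], by simp, rfl, he⟩
    | cons u l ih =>
      intro y0 hl he
      have hu := hl u (by simp)
      have ih' := ih (step u y0) (fun v hv => hl v (by simp [hv])) he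
      by_cases hG : G u
      · obtain ⟨p, r, e1, hp, hr⟩ := complete u y0 hu hG
        have hX0 : X y0 y0 [] := ⟨[], by simp, rfl, rfl⟩
        rcases ih' with hx | ⟨yy, a, b, e2, ⟨x, p1, rfl, hx, hp1⟩, k, c, rfl, ⟨ks, rfl, hks⟩, hc⟩
        · exact Or.inr ⟨(y0, step u y0), p, r ++ Fl wd l, by simp [e1], ⟨[], p, rfl, hX0, hp⟩, [],
            _, rfl, ⟨[], rfl, by simp⟩, r, _, rfl, hr, hx⟩
        · refine Or.inr ⟨(y0, yy.2), p, (r ++ (x ++ p1)) ++ ks.flatten ++ c, by simp [e1, e2],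
            ⟨[], p, rfl, hX0, hp⟩, _, c, rfl, ⟨(r ++ (x ++ p1)) :: ks, by simp, ?_⟩, hc⟩
          intro v hv
          rcases List.mem_cons.1 hv with rfl | hv
          · exact ⟨(step u y0, yy.1), r, _, rfl, hr, x, p1, rfl, hx, hp1⟩
          · exact hks v hv
      · have hpre : ∀ y1 x, X (step u y0) y1 x → X y0 y1 (wd u ++ x) := by
          rintro y1 x ⟨lx, h1, rfl, h2⟩
          refine ⟨u :: lx, ?_, rfl, h2⟩
          intro v hv
          rcases List.mem_cons.1 hv with rfl | hv
          · exact ⟨hu, hG⟩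
          · exact h1 v hv
        rcases ih' with hx | ⟨yy, a, b, e2, ⟨x, p1, rfl, hx, hp1⟩, hb⟩
        · exact Or.inl (hpre _ _ hx)
        · exact Or.inr ⟨yy, wd u ++ x ++ p1, b, by simp [e2], ⟨wd u ++ x, p1, rfl, hpre _ _ hx,
            hp1⟩, hb⟩
  refine ((ht_star_blocks hC).and' hParse).congr (fun w => ?_)
  constructor
  · rintro ⟨⟨l, hl, rfl⟩, hp⟩
    refine ⟨l, hl, rfl, ?_⟩
    rcases hp with ⟨lx, h1, e, h2⟩ |
      ⟨yy, a, b, e2, ⟨x, p1, rfl, ⟨lx, h1, rfl, h2⟩, hp1⟩, k, c, rfl, ⟨ks, rfl, hks⟩, r, x', rfl,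
        hr, hx⟩
    · rw [hP.uniq hl (fun u hu => (h1 u hu).1) e, h2]
    · obtain ⟨l2, rfl, e3⟩ := hP.strip lx l _ hl (fun u hu => (h1 u hu).1)
        (by rw [e2, List.append_assoc])
      rw [run_append, h2]
      exact hsound ks l2 p1 r x' yy.1 yy.2 hks (fun u hu => hl u (by simp [hu])) hp1 hr hx e3
  · rintro ⟨l, hl, rfl, he⟩
    exact ⟨⟨l, hl, rfl⟩, hcomp l y hl he⟩

/-- A faithful additive action of a monoid with a separating vector. -/
structure LinRep (M V : Type*) [Monoid M] [AddCommGroup V] where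
  act : M → V →+ V
  one : ∀ y, act 1 y = y
  mul : ∀ g h y, act (g * h) y = act h (act g y)
  e : V
  inj : ∀ g h, act g e = act h e → g = h

theorem run_affine {M V : Type*} [Monoid M] [AddCommGroup V] (ρ : LinRep M V) (φ : β → M)
    (t : β → V) (l : List β) (y : V) :
    run (fun u y => ρ.act (φ u) y + t u) l y =
      ρ.act (l.map φ).prod y + run (fun u y => ρ.act (φ u) y + t u) l 0 := by
  induction l generalizing y with
  | nil => simp [ρ.one]
  | cons u l ih =>
    rw [run_cons, run_cons, ih, ih (ρ.act (φ u) 0 + t u)]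
    simp [ρ.mul, add_assoc]

theorem decode {M V : Type*} [Monoid M] [AddCommGroup V] [Finite V] (ρ : LinRep M V) {h : ℕ}
    {wd : β → List α} {C : β → Prop} (hP : PCode wd C) (φ : β → M) (t : β → V)
    (H : ∀ y y', Ht h (Runs wd C (fun u y => ρ.act (φ u) y + t u) y y')) (g : M) :
    Ht h (fun w => ∃ l : List β, (∀ u ∈ l, C u) ∧ w = Fl wd l ∧ (l.map φ).prod = g) := by
  refine (Ht.ex (fun c : V => (H 0 c).and' (H ρ.e (ρ.act g ρ.e + c)))).congr (fun w => ?_)
  constructor
  · rintro ⟨c, ⟨l, h1, rfl, h2⟩, l', h1', e, h2'⟩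
    obtain rfl := hP.uniq h1 h1' e
    refine ⟨l, h1, rfl, ρ.inj _ _ ?_⟩
    rw [run_affine, h2] at h2'
    exact add_right_cancel h2'
  · rintro ⟨l, h1, rfl, rfl⟩
    exact ⟨_, ⟨l, h1, rfl, rfl⟩, l, h1, rfl, run_affine ρ φ t l _⟩

end Crest.Agent.R320
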