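import Crest.Agent.R320.Cut

/-! The hat lemma: a translation that lets every thread ignore one of the letters. -/

set_option autoImplicit false

namespace Crest.Agent.R320

section bit

variable {I : Type} [Fintype I] [DecidableEq I]

/-- Hamming weight. -/
def wt (x : I → ZMod 2) : ℕ := ∑ i, (x i).val

theorem wt_flip (x : I → ZMod 2) (i : I) :
    wt (x + Pi.single i 1) + (x i).val = wt x + (x i + 1).val := by
  unfold wt
  rw [← Finset.add_sum_erase _ _ (Finset.mem_univ i), ← Finset.add_sum_erase _ (fun j => (x j).val)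
    (Finset.mem_univ i)]
  have : ∑ j ∈ Finset.univ.erase i, ((x + Pi.single i 1 : I → ZMod 2) j).val =
      ∑ j ∈ Finset.univ.erase i, (x j).val := by
    refine Finset.sum_congr rfl (fun j hj => ?_)
    simp [Pi.single_eq_of_ne (Finset.ne_of_mem_erase hj)]
  rw [this]
  simp
  omega

theorem wt_flip2 (x : I → ZMod 2) {i j : I} (hij : i ≠ j) (hx : x i = x j) :
    ((wt (x + Pi.single i 1 - Pi.single j 1) / 2 : ℕ) : ZMod 2) = ((wt x / 2 : ℕ) : ZMod 2) + 1 := by
  have e : x + Pi.single i 1 - Pi.single j 1 = x + Pi.single i 1 + Pi.single j (1 : ZMod 2) := by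
    ext k
    simp only [Pi.sub_apply, Pi.add_apply]
    rw [sub_eq_add_neg, ZMod.neg_eq_self_mod_two]
  rw [e]
  have h1 := wt_flip x i
  have h2 := wt_flip (x + Pi.single i 1) j
  have h3 : (x + Pi.single i 1 : I → ZMod 2) j = x i := by
    simp [Pi.single_eq_of_ne hij.symm, hx]
  rw [h3] at h2
  have h4 : x i = 0 ∨ x i = 1 := by
    generalize x i = c
    revert c
    decide
  rcases h4 with h4 | h4
  · rw [h4] at h1 h2
    have : wt (x + Pi.single i 1 + Pi.single j (1 : ZMod 2)) / 2 = wt x / 2 + 1 := by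
      have a : ((0 : ZMod 2) + 1).val = 1 := by decide
      have b : (0 : ZMod 2).val = 0 := by decide
      omega
    rw [this]; push_cast; rfl
  · rw [h4] at h1 h2
    have : wt x / 2 = wt (x + Pi.single i 1 + Pi.single j (1 : ZMod 2)) / 2 + 1 := by
      have a : ((1 : ZMod 2) + 1).val = 0 := by decide
      have b : (1 : ZMod 2).val = 1 := by decide
      omega
    rw [this]; push_cast
    have : (1 : ZMod 2) + 1 = 0 := by decide
    rw [add_assoc _ (1 : ZMod 2) 1, this, add_zero]

end bit

theorem bit_lemma (M : Type) [Fintype M] [DecidableEq M] (l : M × Bool → ZMod 2) (d : ZMod 2) :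
    ∃ h : M → (M × Bool → ZMod 2), ∀ a b, a ≠ b →
      ((wt (l + h a - h b) / 2 : ℕ) : ZMod 2) = d := by
  by_cases hd : d = ((wt l / 2 : ℕ) : ZMod 2)
  · exact ⟨fun _ => 0, fun a b _ => by simp [hd]⟩
  have hd' : d = ((wt l / 2 : ℕ) : ZMod 2) + 1 := by
    revert hd
    generalize ((wt l / 2 : ℕ) : ZMod 2) = c
    revert c d
    decide
  obtain ⟨c, hc⟩ := Fintype.exists_le_card_fiber_of_mul_le_card l (n := Fintype.card M)
    (by simp [ZMod.card, mul_comm])
  obtain ⟨j⟩ : Nonempty (M ↪ {i // i ∈ Finset.univ.filter (fun i => l i = c)}) :=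
    Function.Embedding.nonempty_of_card_le (by rw [Fintype.card_coe]; exact hc)
  have hj : ∀ a, l (j a) = c := fun a => (Finset.mem_filter.1 (j a).2).2
  refine ⟨fun a => Pi.single (j a) 1, fun a b hab => ?_⟩
  rw [hd']
  exact wt_flip2 l (fun h => hab (j.injective (Subtype.ext h))) (by rw [hj, hj])

theorem colour_lemma (M κ : Type) [Finite M] [Finite κ] [Nonempty κ] :
    ∃ (Z : Type) (_ : AddCommGroup Z) (_ : Finite Z) (χ : Z → κ),
      ∀ l k, ∃ h : M → Z, ∀ a b, a ≠ b → χ (l + h a - h b) = k := by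
  classical
  have := Fintype.ofFinite M
  let enc : κ → κ → ZMod 2 := fun k k' => if k' = k then 1 else 0
  have henc : Function.Injective enc := by
    intro k k' h
    have := congrFun h k
    by_contra hne
    simp [enc, hne] at this
  refine ⟨κ → M × Bool → ZMod 2, inferInstance, inferInstance,
    fun l => Function.invFun enc (fun k => ((wt (l k) / 2 : ℕ) : ZMod 2)), fun l k => ?_⟩
  choose h hh using fun k' => bit_lemma M (l k') (enc k k')
  refine ⟨fun a k' => h k' a, fun a b hab => ?_⟩
  have : (fun k' => ((wt ((l + (fun k' => h k' a) - fun k' => h k' b) k') / 2 : ℕ) : ZMod 2)) =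
      enc k := funext (fun k' => hh k' a b hab)
  show Function.invFun enc _ = k
  rw [this]
  exact Function.leftInverse_invFun henc k

/-- Position-dependent additive hash. -/
def hash {M Z : Type} [AddCommGroup Z] (hs : ℕ → M → Z) : List M → ℕ → Z
  | [], _ => 0
  | x :: X, i => hs i x + hash hs X (i + 1)

theorem hash_mid {M Z : Type} [AddCommGroup Z] (hs : ℕ → M → Z) (X1 X2 : List M) (x a : M)
    (i : ℕ) : hash hs (X1 ++ a :: X2) i =
      hash hs (X1 ++ x :: X2) i + hs (i + X1.length) a - hs (i + X1.length) x := by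
  induction X1 generalizing i with
  | nil => simp [hash]; abel
  | cons b X1 ih =>
    simp only [List.cons_append, hash, List.length_cons]
    rw [ih, show i + 1 + X1.length = i + (X1.length + 1) by omega]
    abel

theorem hat_lemma {M V : Type} [Monoid M] [Finite M] [AddCommGroup V] [Finite V]
    (ρ : LinRep M V) : ∃ (r : ℕ) (τ : List M → V), ∀ X : List M, X.length = r → ∀ y : V,
      ∃ X1 x X2, X = X1 ++ x :: X2 ∧ ∀ a, ρ.act (X1 ++ a :: X2).prod y + τ (X1 ++ a :: X2) =
        ρ.act X.prod y + τ X := by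
  classical
  obtain ⟨Z, _, _, χ, hχ⟩ := colour_lemma M (V × V)
  obtain ⟨r, ⟨E⟩⟩ := Finite.exists_equiv_fin (M → Z)
  let hs : ℕ → M → Z := fun i => if h : i < r then E.symm ⟨i, h⟩ else 0
  refine ⟨r, fun X => (χ (hash hs X 0)).1 - ρ.act X.prod (χ (hash hs X 0)).2, fun X hX y => ?_⟩
  obtain ⟨h, hh⟩ := hχ (hash hs X 0)
    (ρ.act X.prod y + ((χ (hash hs X 0)).1 - ρ.act X.prod (χ (hash hs X 0)).2), y)
  have hi : (E h : ℕ) < X.length := by rw [hX]; exact (E h).2
  have e : X = X.take (E h) ++ X[(E h : ℕ)] :: X.drop (E h + 1) := by simp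
  refine ⟨X.take (E h), X[(E h : ℕ)], X.drop (E h + 1), e, fun a => ?_⟩
  by_cases ha : a = X[(E h : ℕ)]
  · rw [ha, ← e]
  · have hl : (X.take (E h)).length = E h := by simp; omega
    have : hash hs (X.take (E h) ++ a :: X.drop (E h + 1)) 0 =
        hash hs X 0 + h a - h X[(E h : ℕ)] := by
      rw [hash_mid hs _ _ X[(E h : ℕ)], ← e, hl]
      simp [hs]
    simp only [this, hh a _ ha]
    abel

theorem exists_linRep (M : Type) [Monoid M] [Finite M] :
    ∃ (V : Type) (_ : AddCommGroup V) (_ : Finite V), Nonempty (LinRep M V) := by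
  classical
  refine ⟨M →₀ ZMod 2, inferInstance, Finite.of_equiv _ Finsupp.equivFunOnFinite.symm,
    ⟨⟨fun g => Finsupp.mapDomain.addMonoidHom (fun m => m * g), fun y => ?_, fun g h y => ?_,
      Finsupp.single 1 1, fun g h hgh => ?_⟩⟩⟩
  · simp only [Finsupp.mapDomain.addMonoidHom_apply, mul_one]
    exact Finsupp.mapDomain_id
  · simp only [Finsupp.mapDomain.addMonoidHom_apply]
    rw [← Finsupp.mapDomain_comp]
    congr 1
    ext m
    simp [mul_assoc]
  · simp only [Finsupp.mapDomain.addMonoidHom_apply, Finsupp.mapDomain_single, one_mul] at hgh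
    exact Finsupp.single_left_injective (by decide) hgh

end Crest.Agent.R320
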