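import Crest.Prelude.Def_GRegExp

/-! Closure properties of the class of languages of generalized star height at most `n`. -/

set_option autoImplicit false

namespace Crest.Agent.R320
open Crest.RegLang

variable {α : Type*}

/-- The language `{w | P w}` has generalized star height at most `n`. -/
def Ht (n : ℕ) (P : List α → Prop) : Prop :=
  ∃ e : GRegExp α, e.height ≤ n ∧ ∀ w, w ∈ e.lang ↔ P w

namespace Ht

variable {n : ℕ} {P Q : List α → Prop}

theorem mono {m : ℕ} (h : Ht n P) (hnm : n ≤ m) : Ht m P := by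
  obtain ⟨e, he, hP⟩ := h
  exact ⟨e, he.trans hnm, hP⟩

theorem congr (h : Ht n P) (hPQ : ∀ w, P w ↔ Q w) : Ht n Q := by
  obtain ⟨e, he, hP⟩ := h
  exact ⟨e, he, fun w => (hP w).trans (hPQ w)⟩

theorem false' : Ht n (fun _ : List α => False) :=
  ⟨GRegExp.zero, by simp [GRegExp.height], fun w => by simp [GRegExp.lang]⟩

theorem not' (h : Ht n P) : Ht n (fun w => ¬ P w) := by
  obtain ⟨e, he, hP⟩ := h
  refine ⟨GRegExp.not e, by simpa [GRegExp.height] using he, fun w => ?_⟩
  show ¬ (w ∈ e.lang) ↔ ¬ P w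
  rw [hP w]

theorem true' : Ht n (fun _ : List α => True) :=
  (false' (n := n)).not'.congr (by simp)

theorem or' (h : Ht n P) (h' : Ht n Q) : Ht n (fun w => P w ∨ Q w) := by
  obtain ⟨e, he, hP⟩ := h
  obtain ⟨f, hf, hQ⟩ := h'
  refine ⟨GRegExp.union e f, by simp [GRegExp.height, he, hf], fun w => ?_⟩
  simp only [GRegExp.lang, Language.mem_add, hP w, hQ w]

theorem and' (h : Ht n P) (h' : Ht n Q) : Ht n (fun w => P w ∧ Q w) :=
  (h.not'.or' h'.not').not'.congr (fun w => by tauto)

theorem const (p : Prop) : Ht n (fun _ : List α => p) := by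
  by_cases hp : p
  · exact true'.congr (by simp [hp])
  · exact false'.congr (by simp [hp])

theorem cat (h : Ht n P) (h' : Ht n Q) :
    Ht n (fun w => ∃ u v, w = u ++ v ∧ P u ∧ Q v) := by
  obtain ⟨e, he, hP⟩ := h
  obtain ⟨f, hf, hQ⟩ := h'
  refine ⟨GRegExp.cat e f, by simp [GRegExp.height, he, hf], fun w => ?_⟩
  simp only [GRegExp.lang, Language.mem_mul]
  constructor
  · rintro ⟨u, hu, v, hv, rfl⟩
    exact ⟨u, v, rfl, (hP u).1 hu, (hQ v).1 hv⟩
  · rintro ⟨u, v, rfl, hu, hv⟩
    exact ⟨u, (hP u).2 hu, v, (hQ v).2 hv, rfl⟩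

theorem star (h : Ht n P) :
    Ht (n + 1) (fun w => ∃ l : List (List α), w = l.flatten ∧ ∀ u ∈ l, P u) := by
  obtain ⟨e, he, hP⟩ := h
  refine ⟨GRegExp.star e, by simp [GRegExp.height, he], fun w => ?_⟩
  simp only [GRegExp.lang, Language.mem_kstar]
  constructor
  · rintro ⟨l, rfl, hl⟩
    exact ⟨l, rfl, fun u hu => (hP u).1 (hl u hu)⟩
  · rintro ⟨l, rfl, hl⟩
    exact ⟨l, rfl, fun u hu => (hP u).2 (hl u hu)⟩

theorem nil' : Ht n (fun w : List α => w = []) :=
  ⟨GRegExp.eps, by simp [GRegExp.height], fun w => by simp [GRegExp.lang, Language.mem_one]⟩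

theorem eq' (u : List α) : Ht n (fun w => w = u) := by
  induction u with
  | nil => exact nil'
  | cons a u ih =>
    have h1 : Ht n (fun w : List α => w = [a]) :=
      ⟨GRegExp.char a, by simp [GRegExp.height], fun w => by
        simp only [GRegExp.lang]; exact Iff.rfl⟩
    refine (h1.cat ih).congr (fun w => ?_)
    constructor
    · rintro ⟨x, y, rfl, rfl, rfl⟩; rfl
    · rintro rfl; exact ⟨[a], u, rfl, rfl, rfl⟩

theorem exSet {ι : Type*} {s : Set ι} (hs : s.Finite) {F : ι → List α → Prop}
    (h : ∀ i ∈ s, Ht n (F i)) : Ht n (fun w => ∃ i ∈ s, F i w) := by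
  induction s, hs using Set.Finite.induction_on with
  | empty => exact false'.congr (by simp)
  | @insert a s _ _ ih =>
    refine ((h a (by simp)).or' (ih (fun i hi => h i (by simp [hi])))).congr (fun w => ?_)
    simp

theorem ex {ι : Type*} [Finite ι] {F : ι → List α → Prop}
    (h : ∀ i, Ht n (F i)) : Ht n (fun w => ∃ i, F i w) :=
  (exSet (s := Set.univ) Set.finite_univ (fun i _ => h i)).congr (by simp)

theorem all {ι : Type*} [Finite ι] {F : ι → List α → Prop}
    (h : ∀ i, Ht n (F i)) : Ht n (fun w => ∀ i, F i w) :=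
  (ex (fun i => (h i).not')).not'.congr (by simp)

theorem ofFinite (h : {w | P w}.Finite) : Ht n P :=
  (exSet h (F := fun u w => w = u) (fun u _ => eq' u)).congr (by simp)

theorem ofLen [Finite α] (c : ℕ) (h : ∀ w, P w → w.length ≤ c) : Ht n P :=
  ofFinite ((List.finite_length_le α c).subset (fun w hw => h w hw))

theorem take [Finite α] (c : ℕ) (v : List α) : Ht n (fun w => w.take c = v) := by
  by_cases hv : v.length < c
  · refine ofLen c (fun w hw => ?_)
    have := congrArg List.length hw
    simp only [List.length_take] at this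
    omega
  · refine (((eq' v).cat true').and' (const (v.length = c))).congr (fun w => ?_)
    constructor
    · rintro ⟨⟨x, y, rfl, rfl, -⟩, h⟩
      simp [← h]
    · intro h
      have h2 := congrArg List.length h
      simp only [List.length_take] at h2
      refine ⟨⟨v, w.drop c, ?_, rfl, trivial⟩, by omega⟩
      rw [← h, List.take_append_drop]

end Ht

end Crest.Agent.R320
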