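import Crest.Agent.R320.ALevel
import Crest.Agent.R320.Hat

/-! Assembly of the three star levels. -/

set_option autoImplicit false
set_option linter.unusedSectionVars false

namespace Crest.Agent.R320

theorem run_op {β V : Type*} (step : β → V → V) (l : List β) (y : V) :
    run step l y =
      ((l.map (fun u => MulOpposite.op (show Function.End V from step u))).prod).unop y := by
  induction l generalizing y with
  | nil => rfl
  | cons u l ih => rw [run_cons, ih]; rfl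

theorem pcode_S {α M : Type*} [Monoid M] {ψ : Mor α M} {N : ℕ} (K : MkSys ψ N) (θ : ℕ) :
    PCode id (K.S θ) :=
  ⟨fun _ _ _ _ h h' e => h.pref h' e, fun _ h => h.ne_nil⟩

theorem a_level {α : Type*} {M M' V W : Type} [Finite α] [Monoid M] [Monoid M'] [Finite M']
    [AddCommGroup V] [Finite V] [AddCommGroup W] [Finite W] {r r' : ℕ}
    (T : Ctx α M M' (Lab M V r) (Lab (Function.End V)ᵐᵒᵖ W r') (gpA M V r) r)
    (ρ : LinRep M V) {τ : List M → V}
    (hat : ∀ X : List M, X.length = r → ∀ y : V, ∃ X1 x X2, X = X1 ++ x :: X2 ∧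
      ∀ a, ρ.act (X1 ++ a :: X2).prod y + τ (X1 ++ a :: X2) = ρ.act X.prod y + τ X)
    (ρ' : LinRep (Function.End V)ᵐᵒᵖ W) {τ' : List (Function.End V)ᵐᵒᵖ → W}
    (hat' : ∀ X : List (Function.End V)ᵐᵒᵖ, X.length = r' → ∀ y : W, ∃ X1 x X2,
      X = X1 ++ x :: X2 ∧
      ∀ a, ρ'.act (X1 ++ a :: X2).prod y + τ' (X1 ++ a :: X2) = ρ'.act X.prod y + τ' X)
    (g : M) : Ht 3 (fun w => ∃ l : List (List α), (∀ u ∈ l, T.K.S T.P.th u) ∧ w = Fl id l ∧
      (l.map T.η.f).prod = g) := by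
  have : Finite (Function.End V) := inferInstanceAs (Finite (V → V))
  have : Finite (Function.End V)ᵐᵒᵖ := Finite.of_equiv _ MulOpposite.opEquiv
  let step : List α → V → V := fun u y => ρ.act (T.η.f u) y + T.tA ρ τ u
  let φ : List α → (Function.End V)ᵐᵒᵖ := fun u => MulOpposite.op (step u)
  have hP := pcode_S T.K T.P.th
  have hφ : ∀ x, Ht 1 (fun u => T.GB u ∧ φ u = x) := by
    intro x
    refine MkSys.ht_of_inv (K := T.K) (θ := T.P.th) (T.P.th + T.P.D + T.K.R) (fun u h => h.1.1) ?_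
    rintro u u' hu hu' h1 h2 ⟨⟨-, h3⟩, rfl⟩
    obtain ⟨a, b, c⟩ := T.zone_inv ρ τ hu hu' h1 h2
    exact ⟨⟨hu', fun h => h3 (a.2 h)⟩, by simp only [φ, step, b, c]⟩
  have hB := b_level ρ' hat' (hP.mono (fun u (h : T.GB u) => h.1)) hφ T.ht_AlB0 T.ht_RmB0
    (fun l s h => T.RmB0_ne h) (fun u v p s v' l l' => T.soundB0) (fun u l h => T.complB0 h.1 l)
  refine decode ρ hP T.η.f (T.tA ρ τ) (cut_level (G := T.GA) (Al := T.AlA) (Rm := T.RmA ρ τ) hP
    ?_ ?_ ?_ ?_ ?_ ?_ ?_) g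
  · refine (MkSys.ht_of_inv (K := T.K) (θ := T.P.th) 0 ?_ ?_).mono (by omega)
    · rintro u ⟨v, hv, rfl⟩
      exact hv
    · exact fun u u' _ h _ _ _ => ⟨u', h, rfl⟩
  · intro y y'
    refine (Ht.ex (fun x : (Function.End V)ᵐᵒᵖ => (Ht.const (x.unop y = y')).and' (hB x))).congr
      (fun w => ⟨?_, ?_⟩)
    · rintro ⟨x, rfl, l, h1, rfl, rfl⟩
      exact ⟨l, h1, rfl, run_op _ _ _⟩
    · rintro ⟨l, h1, rfl, rfl⟩
      exact ⟨_, (run_op _ _ _).symm, l, h1, rfl, rfl⟩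
  · exact fun y => Ht.ofLen T.P.D (fun _ h => T.AlA_le h)
  · intro y
    have hth : T.P.th = 3 * T.P.D + 1 + 3 * T.P.z := rfl
    exact (MkSys.ht_of_inv (K := T.K) (θ := T.P.th) (T.P.th + T.K.R) (fun u h => h.1)
      (fun u u' _ hu' h1 h2 => T.RmA_inv ρ τ hu' h1 le_rfl (by omega) le_rfl h2)).mono (by omega)
  · exact fun y s h => h.1.ne_nil
  · intro u v p s v' y y' hu hp hs he
    have e : p ++ s = u := (T.S_control (T.AlA_le hp) hs.1 hs.2.1).pref hu he.symm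
    exact ⟨e, T.cut_sound ρ τ ⟨p, s, e.symm, hp, hs⟩⟩
  · intro u y hu hG
    obtain ⟨y', h⟩ := T.cut_complete ρ τ hat hu hG y
    rw [T.cut_sound ρ τ h]
    exact h

theorem ht_fibre {α : Type*} {M : Type} [Finite α] [Monoid M] [Finite M] (η : Mor α M) (g : M) :
    Ht 3 (fun w => η.f w = g) := by
  obtain ⟨V, _, _, ⟨ρ⟩⟩ := exists_linRep M
  obtain ⟨r, τ, hat⟩ := hat_lemma ρ
  have : Finite (Function.End V) := inferInstanceAs (Finite (V → V))
  have : Finite (Function.End V)ᵐᵒᵖ := Finite.of_equiv _ MulOpposite.opEquiv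
  obtain ⟨W, _, _, ⟨ρ'⟩⟩ := exists_linRep (Function.End V)ᵐᵒᵖ
  obtain ⟨r', τ', hat'⟩ := hat_lemma ρ'
  obtain ⟨P⟩ := exists_par (Lab M V r) (Lab (Function.End V)ᵐᵒᵖ W r') (gpA M V r) r
    (fun l => by have := l.2.2; simp only [gpA]; omega)
  have : NeZero P.z := ⟨by have := P.Dz; omega⟩
  let ψ : Mor α (M × Multiplicative (ZMod P.z)) :=
    ⟨fun w => (η.f w, Multiplicative.ofAdd (w.length : ZMod P.z)), by simp [η.nil, Prod.ext_iff],
      fun u v => by simp [η.app, ofAdd_add]⟩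
  obtain ⟨K⟩ := exists_mkSys ψ (P.th + P.D) (by unfold Par.th; omega)
  let T : Ctx α M (M × Multiplicative (ZMod P.z)) (Lab M V r) (Lab (Function.End V)ᵐᵒᵖ W r')
      (gpA M V r) r :=
    ⟨P, η, ψ, fun x x' h => congrArg Prod.fst h, fun x x' h =>
      (ZMod.natCast_eq_natCast_iff _ _ _).1 (Multiplicative.ofAdd.injective (congrArg Prod.snd h)),
      K⟩
  have hA := a_level T ρ hat ρ' hat'
  choose L h1 h2 h3 using MkSys.thin_tail (K := K) P.th
  refine (Ht.ex (fun x : M × (M × Multiplicative (ZMod P.z)) =>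
    (Ht.const (x.1 * x.2.1 = g)).and' ((hA x.1).cat ((h1 x.2).mono (by omega))))).congr
    (fun w => ⟨?_, ?_⟩)
  · rintro ⟨⟨a, b⟩, rfl, u, t, rfl, ⟨l, -, rfl, rfl⟩, ht⟩
    rw [η.app, Fl_id, η.flatten, ← h3 _ _ ht]
  · rintro rfl
    obtain ⟨l, t, rfl, hl, ht⟩ := MkSys.decomp (K := K) P.th w
    exact ⟨((l.map η.f).prod, ψ.f t), by rw [η.app, η.flatten], _, t, by rw [Fl_id], ⟨l, hl, rfl, rfl⟩,
      h2 _ _ ht rfl⟩

theorem ht_regular {α : Type*} [Finite α] {σ : Type} [Finite σ] (A : DFA α σ) :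
    Ht 3 (fun w => w ∈ A.accepts) := by
  have : Finite (Function.End σ) := inferInstanceAs (Finite (σ → σ))
  have : Finite (Function.End σ)ᵐᵒᵖ := Finite.of_equiv _ MulOpposite.opEquiv
  let η : Mor α (Function.End σ)ᵐᵒᵖ :=
    ⟨fun w => MulOpposite.op (fun s => A.evalFrom s w), rfl, fun u v => by
      apply MulOpposite.unop_injective
      funext s
      exact A.evalFrom_of_append s u v⟩
  refine (Ht.ex (fun g : (Function.End σ)ᵐᵒᵖ =>
    (Ht.const (g.unop A.start ∈ A.accept)).and' (ht_fibre η g))).congr (fun w => ⟨?_, ?_⟩)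
  · rintro ⟨g, h, rfl⟩
    exact h
  · intro h
    exact ⟨η.f w, h, rfl⟩

end Crest.Agent.R320
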