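import Crest.Agent.R320.Thin

/-! Local-minimum markers: far apart, and marker-free words are thin. -/

set_option autoImplicit false

namespace Crest.Agent.R320

variable {α : Type*} {M : Type*} [Monoid M]

/-- The factor of length `2 N` starting at position `i`. -/
def mer (N : ℕ) (w : List α) (i : ℕ) : List α := (w.drop i).take (2 * N)

theorem mer_left {N : ℕ} {u : List α} (v : List α) {i : ℕ} (h : i + 2 * N ≤ u.length) :
    mer N (u ++ v) i = mer N u i := by
  unfold mer
  rw [List.drop_append_of_le_length (by omega), List.take_append_of_le_length (by simp; omega)]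

theorem mer_right {N : ℕ} (p r : List α) (i : ℕ) : mer N (p ++ r) (p.length + i) = mer N r i := by
  unfold mer
  rw [List.drop_append, List.drop_eq_nil_of_le (by omega)]
  simp

/-- A marker window starts at position `j`. -/
def MkD (rk : List α → ℕ) (N : ℕ) (w : List α) (j : ℕ) : Prop :=
  j + 4 * N ≤ w.length ∧
    (∀ i, j + N < i → i ≤ j + 2 * N → rk (mer N w (j + N)) < rk (mer N w i)) ∧
    (∀ i, j ≤ i → i < j + N → rk (mer N w (j + N)) ≤ rk (mer N w i))

variable {rk : List α → ℕ} {N : ℕ}

theorem MkD_left {u : List α} (v : List α) {j : ℕ} (h : j + 4 * N ≤ u.length) :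
    MkD rk N (u ++ v) j ↔ MkD rk N u j := by
  unfold MkD
  rw [mer_left v (show j + N + 2 * N ≤ u.length by omega)]
  constructor
  · rintro ⟨-, h2, h3⟩
    refine ⟨h, fun i hi hi' => ?_, fun i hi hi' => ?_⟩
    · rw [← mer_left v (show i + 2 * N ≤ u.length by omega)]; exact h2 i hi hi'
    · rw [← mer_left v (show i + 2 * N ≤ u.length by omega)]; exact h3 i hi hi'
  · rintro ⟨-, h2, h3⟩
    refine ⟨by simp; omega, fun i hi hi' => ?_, fun i hi hi' => ?_⟩
    · rw [mer_left v (show i + 2 * N ≤ u.length by omega)]; exact h2 i hi hi'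
    · rw [mer_left v (show i + 2 * N ≤ u.length by omega)]; exact h3 i hi hi'

theorem MkD_right (p r : List α) (j : ℕ) :
    MkD rk N (p ++ r) (p.length + j) ↔ MkD rk N r j := by
  unfold MkD
  rw [show p.length + j + N = p.length + (j + N) by omega, mer_right]
  constructor
  · rintro ⟨h1, h2, h3⟩
    refine ⟨by simp at h1; omega, fun i hi hi' => ?_, fun i hi hi' => ?_⟩
    · rw [← mer_right p r i]; exact h2 _ (by omega) (by omega)
    · rw [← mer_right p r i]; exact h3 _ (by omega) (by omega)
  · rintro ⟨h1, h2, h3⟩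
    refine ⟨by simp; omega, fun i hi hi' => ?_, fun i hi hi' => ?_⟩
    · rw [show i = p.length + (i - p.length) by omega, mer_right]
      exact h2 _ (by omega) (by omega)
    · rw [show i = p.length + (i - p.length) by omega, mer_right]
      exact h3 _ (by omega) (by omega)

theorem MkD_gap {w : List α} {j j' : ℕ} (h : MkD rk N w j) (h' : MkD rk N w j') (hj : j < j') :
    j + N < j' := by
  by_contra hc
  have h1 := h.2.1 (j' + N) (by omega) (by omega)
  have h2 := h'.2.2 (j + N) (by omega) (by omega)
  omega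

/-- Marker-free words whose long factors lie in `F`. -/
def FreeIn (rk : List α → ℕ) (N : ℕ) (F : Set (List α)) (w : List α) : Prop :=
  (∀ j, ¬ MkD rk N w j) ∧ ∀ i, i + 2 * N ≤ w.length → mer N w i ∈ F

theorem FreeIn.mid {F : Set (List α)} {w v : List α} (h : FreeIn rk N F w) (i0 : ℕ)
    (hv : ∀ i, N ≤ i → i < i0 → i + 2 * N ≤ w.length → mer N w i ≠ v) :
    FreeIn rk N (F \ {v}) ((w.drop N).take (i0 - N)) := by
  by_cases hN : w.length ≤ N
  · rw [List.drop_eq_nil_of_le hN, List.take_nil]
    refine ⟨fun j hj => ?_, fun i hi => ?_⟩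
    · have := hj.1
      simp at this
      obtain ⟨rfl, rfl⟩ := this
      have hw : w = [] := List.eq_nil_of_length_eq_zero (by omega)
      exact h.1 0 (hw ▸ hj)
    · simp at hi
      obtain ⟨rfl, rfl⟩ := hi
      have hw : w = [] := List.eq_nil_of_length_eq_zero (by omega)
      subst hw
      refine ⟨h.2 0 (by simp), ?_⟩
      have := h.1 0
      exact absurd ⟨by simp, fun i hi hi' => by omega, fun i hi hi' => by omega⟩ this
  set b := (w.drop N).take (i0 - N) with hb
  have hw : w = w.take N ++ (b ++ (w.drop N).drop (i0 - N)) := by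
    rw [hb, List.take_append_drop, List.take_append_drop]
  have hl : (w.take N).length = N := by simp; omega
  have hbl : b.length ≤ i0 - N ∧ N + b.length ≤ w.length := by
    rw [hb]; simp; omega
  refine ⟨fun j hj => ?_, fun i hi => ?_⟩
  · apply h.1 (N + j)
    rw [hw]
    have := (MkD_right (rk := rk) (N := N) (w.take N) (b ++ (w.drop N).drop (i0 - N)) j).2
      ((MkD_left _ hj.1).2 hj)
    rwa [hl] at this
  · have e : mer N w (N + i) = mer N b i := by
      have := mer_right (N := N) (w.take N) (b ++ (w.drop N).drop (i0 - N)) i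
      rw [hl, ← hw, mer_left _ hi] at this
      exact this
    rw [← e]
    by_cases hN0 : N = 0
    · subst hN0
      exact absurd ⟨by simp, fun i hi hi' => by omega, fun i hi hi' => by omega⟩ (h.1 0)
    exact ⟨h.2 _ (by omega), hv _ (by omega) (by omega) (by omega)⟩

/-- Short words `u` such that `v` has period `|u|`. -/
def Per (N : ℕ) (v : List α) : Set (List α) := {u | u.length ≤ N ∧ u <+: v ∧ v <+: u ++ v}

theorem Per_comm {v : List α} (hv : v.length = 2 * N) :
    ∀ u ∈ Per N v, ∀ u' ∈ Per N v, u ++ u' = u' ++ u := by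
  have key : ∀ u ∈ Per N v, ∀ u' ∈ Per N v, u ++ u' <+: v := by
    rintro u ⟨h1, -, h3⟩ u' ⟨h1', h2', -⟩
    exact List.prefix_of_prefix_length_le ((List.prefix_append_right_inj u).2 h2') h3
      (by simp; omega)
  intro u hu u' hu'
  exact (List.prefix_of_prefix_length_le (key u hu u' hu') (key u' hu' u hu)
    (by simp; omega)).eq_of_length (by simp; omega)

theorem FreeIn.chain (hrk : Function.Injective rk) {F : Set (List α)} {w v : List α}
    (h : FreeIn rk N F w) (hmin : ∀ x ∈ F, rk v ≤ rk x) :
    ∀ n i, w.length - i = n → N ≤ i → i + 2 * N ≤ w.length → mer N w i = v →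
      ∃ c d, w.drop i = c ++ d ∧ (∃ l : List (List α), c = l.flatten ∧ ∀ u ∈ l, u ∈ Per N v) ∧
        d.length ≤ 3 * N := by
  intro n
  induction n using Nat.strong_induction_on with
  | _ n ih =>
    intro i hn hi hi2 hv
    by_cases h3 : w.length < i + 3 * N
    · exact ⟨[], w.drop i, rfl, ⟨[], rfl, by simp⟩, by simp; omega⟩
    have hM := h.1 (i - N)
    unfold MkD at hM
    rw [show i - N + N = i by omega, hv] at hM
    have : ∃ i', i < i' ∧ i' ≤ i + N ∧ rk (mer N w i') ≤ rk v := by
      by_contra hc
      push Not at hc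
      exact hM ⟨by omega, fun i' h1 h2 => hc i' h1 (by omega),
        fun i' h1 h2 => hmin _ (h.2 _ (by omega))⟩
    obtain ⟨i', h1, h2, h4⟩ := this
    have hv' : mer N w i' = v := hrk (le_antisymm h4 (hmin _ (h.2 _ (by omega))))
    obtain ⟨c, d, e1, ⟨l, rfl, hl⟩, hd⟩ := ih (w.length - i') (by omega) i' rfl (by omega)
      (by omega) hv'
    have e2 : w.drop i = (w.drop i).take (i' - i) ++ w.drop i' := by
      conv_lhs => rw [← List.take_append_drop (i' - i) (w.drop i)]
      rw [List.drop_drop, show i + (i' - i) = i' by omega]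
    refine ⟨(w.drop i).take (i' - i) ++ l.flatten, d, by rw [List.append_assoc, ← e1, ← e2],
      ⟨(w.drop i).take (i' - i) :: l, by simp, ?_⟩, hd⟩
    intro u hu
    rcases List.mem_cons.1 hu with rfl | hu
    · refine ⟨by simp; omega, ?_, ?_⟩
      · rw [← hv]
        exact List.take_prefix_take_left (by omega)
      · have p1 : v <+: w.drop i := by rw [← hv]; exact List.take_prefix _ _
        have p2 : (w.drop i).take (i' - i) ++ v <+: w.drop i := by
          conv_rhs => rw [e2]
          rw [List.prefix_append_right_inj, ← hv']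
          exact List.take_prefix _ _
        exact List.prefix_of_prefix_length_le p1 p2 (by simp)
    · exact hl u hu

theorem thin_freeIn [Finite α] [Finite M] (ψ : Mor α M) (hrk : Function.Injective rk) :
    ∀ (k : ℕ) (F : Set (List α)), F.Finite → F.ncard = k → (∀ v ∈ F, v.length = 2 * N) →
      Thin ψ (FreeIn rk N F) := by
  intro k
  induction k with
  | zero =>
    intro F hF h0 _
    rw [Set.ncard_eq_zero hF] at h0
    subst h0
    refine (Thin.ofLen (2 * N)).mono (fun w hw => ?_)
    by_contra hc
    exact hw.2 0 (by omega)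
  | succ k ih =>
    intro F hF hk hlen
    have hne : F.Nonempty := by
      rw [← Set.ncard_pos hF]; omega
    obtain ⟨v, hvF, hmin⟩ := Set.exists_min_image F rk hF hne
    have ih' := ih (F \ {v}) (hF.subset Set.sdiff_subset)
      (by rw [Set.ncard_sdiff_singleton_of_mem hvF]; omega) (fun x hx => hlen x hx.1)
    have hP : (Per N v).Finite := (List.finite_length_le α N).subset (fun u hu => hu.1)
    refine ((Thin.ofLen N).cat (ih'.cat ((Thin.comm hP (Per_comm (hlen v hvF))).cat
      (Thin.ofLen (3 * N))))).mono (fun w hw => ?_)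
    by_cases hex : ∃ i, N ≤ i ∧ i + 2 * N ≤ w.length ∧ mer N w i = v
    · classical
      obtain ⟨h1, h2, h3⟩ := Nat.find_spec hex
      set i0 := Nat.find hex
      obtain ⟨c, d, e1, hc, hd⟩ := hw.chain hrk hmin _ i0 rfl h1 h2 h3
      refine ⟨w.take N, w.drop N, by simp, by simp, (w.drop N).take (i0 - N), w.drop i0, ?_,
        hw.mid i0 (fun i a1 a2 a3 a4 => Nat.find_min hex a2 ⟨a1, a3, a4⟩), c, d, e1, hc, hd⟩
      conv_lhs => rw [← List.take_append_drop (i0 - N) (w.drop N)]
      rw [List.drop_drop, show N + (i0 - N) = i0 by omega]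
    · refine ⟨w.take N, w.drop N, by simp, by simp, (w.drop N).take (w.length - N), [], ?_,
        hw.mid w.length (fun i a1 _ a3 a4 => hex ⟨i, a1, a3, a4⟩), [], [], rfl,
        ⟨[], rfl, by simp⟩, by simp⟩
      rw [List.append_nil, List.take_of_length_le (by simp)]

/-- A marker system with gap larger than `N`. -/
structure MkSys (ψ : Mor α M) (N : ℕ) where
  R : ℕ
  Mk : List α → ℕ → Prop
  Rpos : 0 < R
  len : ∀ {w j}, Mk w j → j + R ≤ w.length
  left : ∀ {u} (v) {j}, j + R ≤ u.length → (Mk (u ++ v) j ↔ Mk u j)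
  right : ∀ p r j, Mk (p ++ r) (p.length + j) ↔ Mk r j
  gap : ∀ {w j j'}, Mk w j → Mk w j' → j < j' → j + N < j'
  thin : Thin ψ (fun w => ∀ j, ¬ Mk w j)

theorem exists_mkSys [Finite α] [Finite M] (ψ : Mor α M) (N : ℕ) (hN : 0 < N) :
    Nonempty (MkSys ψ N) := by
  obtain ⟨rk, hrk⟩ := exists_injective_nat (List α)
  have hF : {v : List α | v.length = 2 * N}.Finite := List.finite_length_eq α _
  refine ⟨⟨4 * N, MkD rk N, by omega, fun h => h.1, fun v _ h => MkD_left v h, MkD_right,
    MkD_gap, (thin_freeIn ψ hrk _ _ hF rfl (fun v hv => hv)).mono (fun w hw => ⟨hw, ?_⟩)⟩⟩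
  intro i hi
  simp [mer]; omega

end Crest.Agent.R320
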