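import Crest.Agent.R320.ACode

/-! The numerical parameters of the two codes. -/

set_option autoImplicit false

namespace Crest.Agent.R320

/-- Polynomially bounded functions. -/
def PB (f : ℕ → ℕ) : Prop := ∃ c d, ∀ k, f k ≤ c * (k + 1) ^ d

namespace PB

variable {f g : ℕ → ℕ}

theorem const (a : ℕ) : PB (fun _ => a) := ⟨a, 0, by simp⟩

theorem id' : PB (fun k => k) := ⟨1, 1, by simp⟩

theorem add (hf : PB f) (hg : PB g) : PB (fun k => f k + g k) := by
  obtain ⟨c, d, h⟩ := hf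
  obtain ⟨c', d', h'⟩ := hg
  refine ⟨c + c', d + d', fun k => ?_⟩
  have h1 : (k + 1) ^ d ≤ (k + 1) ^ (d + d') := Nat.pow_le_pow_right (by omega) (by omega)
  have h2 : (k + 1) ^ d' ≤ (k + 1) ^ (d + d') := Nat.pow_le_pow_right (by omega) (by omega)
  calc f k + g k ≤ c * (k + 1) ^ d + c' * (k + 1) ^ d' := Nat.add_le_add (h k) (h' k)
    _ ≤ c * (k + 1) ^ (d + d') + c' * (k + 1) ^ (d + d') := by gcongr
    _ = _ := by ring

theorem mul (hf : PB f) (hg : PB g) : PB (fun k => f k * g k) := by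
  obtain ⟨c, d, h⟩ := hf
  obtain ⟨c', d', h'⟩ := hg
  refine ⟨c * c', d + d', fun k => ?_⟩
  calc f k * g k ≤ c * (k + 1) ^ d * (c' * (k + 1) ^ d') := Nat.mul_le_mul (h k) (h' k)
    _ = _ := by ring

theorem pow (hf : PB f) (e : ℕ) : PB (fun k => f k ^ e) := by
  induction e with
  | zero => simpa using const 1
  | succ e ih => simpa [pow_succ] using ih.mul hf

theorem exists_le (hf : PB f) : ∃ k, f k ≤ 2 ^ k := by
  obtain ⟨c, d, h⟩ := hf
  have ht := tendsto_pow_const_div_const_pow_of_one_lt d (show (1 : ℝ) < 2 by norm_num)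
  have hpos : (0 : ℝ) < 1 / (2 * c + 1) := by positivity
  obtain ⟨k, hk⟩ := ((ht.eventually (gt_mem_nhds hpos)).and (Filter.eventually_ge_atTop 1)).exists
  obtain ⟨k, rfl⟩ : ∃ k', k = k' + 1 := ⟨k - 1, by omega⟩
  refine ⟨k, (h k).trans ?_⟩
  have h1 := hk.1
  rw [div_lt_div_iff₀ (by positivity) (by positivity), one_mul, pow_succ] at h1
  have h2 : (0 : ℝ) ≤ ((k + 1 : ℕ) : ℝ) ^ d := by positivity
  have : (c : ℝ) * ((k + 1 : ℕ) : ℝ) ^ d ≤ 2 ^ k := by nlinarith
  exact_mod_cast this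

end PB

/-- Parameters of the exact top code and of the middle code. -/
structure Par (ΛA ΛB : Type) (gp : ΛA → ℕ) (r : ℕ) where
  C : Type
  fC : Fintype C
  q : C → ℕ
  n : ℕ
  hn : 2 * Fintype.card (C × Bool) < n
  al : ΛA × (C × Bool) × Fin n → ℕ
  g : ℕ → ℕ
  D : ℕ
  z : ℕ
  z0 : ℕ
  g0 : g 0 = 0
  gr : g r = D
  gmono : Monotone g
  al_lo : ∀ σ, g (gp σ.1) ≤ al σ
  al_hi : ∀ σ, al σ ≤ g (gp σ.1 + 1)
  al_D : ∀ σ, al σ ≤ D
  B4 : ∀ a1 a2 a3 a4 b1 b2 b3 b4, al a1 + al a2 + al a3 + al a4 = al b1 + al b2 + al b3 + al b4 →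
      a1 = b1 ∨ a1 = b2 ∨ a1 = b3 ∨ a1 = b4
  qz : ∀ c, q c ∣ z
  qbig : ∀ c, 5 * D + 1 < q c
  z0z : z0 ≤ z
  Dz : D < z
  U : ΛB × Option (Fin (2 * z0 + D)) → C → Prop
  W : ΛB × Option (Fin (2 * z0 + D)) → C → Prop
  cross : ∀ l l', l ≠ l' → ∃ c, U l c ∧ W l' c
  gen : ∀ l (Γ : ℕ), ∃ a, z ≤ a ∧ a < z + z0 ∧ (∀ c, U (l, none) c → q c ∣ a) ∧
    ∀ c, W (l, none) c → a ≡ Γ [MOD q c]
  aex : ΛB → Fin (2 * z0 + D) → ℕ
  aex_lt : ∀ l i, aex l i < z
  aexU : ∀ l i c, U (l, some i) c → q c ∣ aex l i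
  aexW : ∀ l i c, W (l, some i) c → aex l i ≡ 3 * D + 1 + 3 * z - z0 - D + i [MOD q c]

theorem crt_window {ι : Type} [Fintype ι] (q : ι → ℕ) (hq : ∀ i, q i ≠ 0)
    (hc : Pairwise (fun i j => Nat.Coprime (q i) (q j))) (t : ι → ℕ) (G : ℕ) :
    ∃ a, G ≤ a ∧ a < G + ∏ i, q i ∧ ∀ i, a ≡ t i [MOD q i] := by
  classical
  obtain ⟨k, hk⟩ := Nat.chineseRemainderOfFinset t q Finset.univ (fun i _ => hq i)
    (fun i _ j _ hij => hc hij)
  set z := ∏ i, q i with hz
  have hzpos : 0 < z := Finset.prod_pos (fun i _ => Nat.pos_of_ne_zero (hq i))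
  refine ⟨G + (k + (z - 1) * G) % z, by omega, by have := Nat.mod_lt (k + (z - 1) * G) hzpos; omega,
    fun i => ?_⟩
  have hd : q i ∣ z := Finset.dvd_prod_of_mem _ (Finset.mem_univ i)
  have h1 : G + (k + (z - 1) * G) % z ≡ G + (k + (z - 1) * G) [MOD z] :=
    (Nat.mod_modEq _ _).add_left G
  have h2 : G + (k + (z - 1) * G) = k + z * G := by
    obtain ⟨y, hy⟩ : ∃ y, z = y + 1 := ⟨z - 1, by omega⟩
    rw [hy]; simp; ring
  rw [h2] at h1
  have h3 : k + z * G ≡ k [MOD z] := by simp [Nat.ModEq]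
  exact ((h1.trans h3).of_dvd hd).trans (hk i (Finset.mem_univ i))

theorem coprime_family {n Y : ℕ} (hY : n.factorial ∣ Y) {i j : ℕ} (hi : i < n) (hj : j < n)
    (hij : i ≠ j) : Nat.Coprime ((i + 1) * Y + 1) ((j + 1) * Y + 1) := by
  rcases lt_or_gt_of_ne hij with h | h
  · exact Nat.coprime_mul_succ
      ((Nat.dvd_factorial (by omega) (by omega)).trans hY)
  · exact (Nat.coprime_mul_succ
      ((Nat.dvd_factorial (by omega) (by omega)).trans hY)).symm

theorem exists_par (ΛA ΛB : Type) [Finite ΛA] [Finite ΛB] (gp : ΛA → ℕ) (r : ℕ)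
    (hgp : ∀ l, gp l < r) : Nonempty (Par ΛA ΛB gp r) := by
  classical
  have := Fintype.ofFinite ΛA
  have := Fintype.ofFinite ΛB
  let n0 := Fintype.card ΛB + 2
  let nn : ℕ → ℕ := fun k => 2 * ((n0 + k * 2) * 2) + 1
  let K0 : ℕ → ℕ := fun k => Fintype.card ΛA * ((n0 + k * 2) * 2 * nn k)
  let H : ℕ → ℕ := fun k => 4 * (r * K0 k) ^ 4 + 1
  let D : ℕ → ℕ := fun k => sid (H k) (r * K0 k)
  let Y0 : ℕ → ℕ := fun k => n0.factorial * (5 * D k + 1)
  have pK : PB (fun k => r * K0 k) :=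
    (PB.const r).mul ((PB.const _).mul ((((PB.const n0).add (PB.id'.mul (PB.const 2))).mul
      (PB.const 2)).mul (((PB.const 2).mul (((PB.const n0).add (PB.id'.mul (PB.const 2))).mul
      (PB.const 2))).add (PB.const 1))))
  have pH : PB H := ((PB.const 4).mul (pK.pow 4)).add (PB.const 1)
  have pD : PB D := pK.add (pH.mul ((pK.pow 2).add (pH.mul ((pK.pow 3).add (pH.mul (pK.pow 4))))))
  have pY : PB Y0 := (PB.const _).mul (((PB.const 5).mul pD).add (PB.const 1))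
  obtain ⟨k, hk⟩ := ((PB.const (Fintype.card ΛB)).mul (((PB.const 2).mul
    ((((PB.const n0).mul pY).add (PB.const 1)).pow n0)).add pD)).exists_le
  let C0 := ΛB ⊕ Bool
  let C1 := Fin k × Bool
  have c0 : Fintype.card C0 = n0 := by simp [C0, n0]
  have c1 : Fintype.card C1 = k * 2 := by simp [C1]
  let i0 : C0 ≃ Fin n0 := Fintype.equivFinOfCardEq c0
  let i1 : C1 ≃ Fin (k * 2) := Fintype.equivFinOfCardEq c1
  let q0 : C0 → ℕ := fun c => (i0 c + 1) * Y0 k + 1
  let z0 := ∏ c, q0 c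
  let Y1 := (k * 2).factorial * (z0 * (5 * D k + 1))
  let q1 : C1 → ℕ := fun c => (i1 c + 1) * Y1 + 1
  let q : C0 ⊕ C1 → ℕ := Sum.elim q0 q1
  have z0pos : 0 < z0 := Finset.prod_pos (fun c _ => Nat.succ_pos _)
  have hq0 : Pairwise (fun c c' => Nat.Coprime (q0 c) (q0 c')) := fun c c' h =>
    coprime_family (Dvd.intro _ rfl) (i0 c).2 (i0 c').2 (fun e => h (i0.injective (Fin.ext e)))
  have hq01 : ∀ c c', Nat.Coprime (q0 c) (q1 c') := by
    intro c c'
    have h1 : q0 c ∣ (i1 c' + 1) * Y1 :=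
      Dvd.dvd.mul_left (Dvd.dvd.mul_left (Dvd.dvd.mul_right
        (Finset.dvd_prod_of_mem _ (Finset.mem_univ c)) _) _) _
    obtain ⟨x, hx⟩ := h1
    show Nat.Coprime (q0 c) ((i1 c' + 1) * Y1 + 1)
    rw [hx]
    simp
  have hq : Pairwise (fun c c' => Nat.Coprime (q c) (q c')) := by
    rintro (c | c) (c' | c') h
    · exact hq0 (fun e => h (by rw [e]))
    · exact hq01 c c'
    · exact (hq01 c' c).symm
    · exact coprime_family (Dvd.intro _ rfl) (i1 c).2 (i1 c').2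
        (fun e => h (by rw [i1.injective (Fin.ext e)]))
  have hqne : ∀ c, q c ≠ 0 := by rintro (c | c) <;> exact Nat.succ_ne_zero _
  have hbig : ∀ c, 5 * D k + 1 < q c := by
    rintro (c | c)
    · show 5 * D k + 1 < (i0 c + 1) * (n0.factorial * (5 * D k + 1)) + 1
      have := n0.factorial_pos
      have : 1 * (1 * (5 * D k + 1)) ≤ (i0 c + 1) * (n0.factorial * (5 * D k + 1)) := by
        gcongr <;> omega
      omega
    · show 5 * D k + 1 < (i1 c + 1) * ((k * 2).factorial * (z0 * (5 * D k + 1))) + 1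
      have := (k * 2).factorial_pos
      have : 1 * (1 * (1 * (5 * D k + 1))) ≤
          (i1 c + 1) * ((k * 2).factorial * (z0 * (5 * D k + 1))) := by
        gcongr <;> omega
      omega
  let z := ∏ c, q c
  have zpos : 0 < z := Finset.prod_pos (fun c _ => Nat.pos_of_ne_zero (hqne c))
  have hz0 : z0 ∣ z := by
    show z0 ∣ ∏ c, q c
    rw [Fintype.prod_sum_type]
    exact Dvd.intro _ rfl
  have hz0b : z0 ≤ (n0 * Y0 k + 1) ^ n0 := by
    have := Finset.prod_le_pow_card Finset.univ q0 (n0 * Y0 k + 1) (fun c _ => by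
      have := (i0 c).2
      show (i0 c + 1) * Y0 k + 1 ≤ _
      gcongr; omega)
    rwa [Finset.card_univ, c0] at this
  obtain ⟨cd⟩ : Nonempty (ΛB × Fin (2 * z0 + D k) ↪ (Fin k → Bool)) := by
    apply Function.Embedding.nonempty_of_card_le
    simp only [Fintype.card_prod, Fintype.card_fin, Fintype.card_fun, Fintype.card_bool]
    refine le_trans ?_ hk
    gcongr
  let U : ΛB × Option (Fin (2 * z0 + D k)) → C0 ⊕ C1 → Prop := fun l c =>
    match l.2, c with
    | none, Sum.inl (Sum.inl l') => l' ≠ l.1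
    | none, Sum.inl (Sum.inr b) => b = false
    | none, Sum.inr _ => False
    | some _, Sum.inl (Sum.inl _) => False
    | some _, Sum.inl (Sum.inr b) => b = true
    | some i, Sum.inr jb => jb.2 ≠ cd (l.1, i) jb.1
  let W : ΛB × Option (Fin (2 * z0 + D k)) → C0 ⊕ C1 → Prop := fun l c =>
    match l.2, c with
    | none, Sum.inl (Sum.inl l') => l' = l.1
    | none, Sum.inl (Sum.inr b) => b = true
    | none, Sum.inr _ => False
    | some _, Sum.inl (Sum.inl _) => False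
    | some _, Sum.inl (Sum.inr b) => b = false
    | some i, Sum.inr jb => jb.2 = cd (l.1, i) jb.1
  have hUW : ∀ l c, U l c → ¬ W l c := by
    rintro ⟨l, _ | i⟩ ((l' | b) | jb) <;> simp [U, W]
  choose aex h1 h2 h3 using fun l (i : Fin (2 * z0 + D k)) => crt_window q hqne hq
    (fun c => if W (l, some i) c then 3 * D k + 1 + 3 * z - z0 - D k + i else 0) 0
  have cS : Fintype.card (ΛA × ((C0 ⊕ C1) × Bool) × Fin (nn k)) = K0 k := by
    simp [K0, c0, c1]
  let ix := Fintype.equivFinOfCardEq cS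
  let kx : ΛA × ((C0 ⊕ C1) × Bool) × Fin (nn k) → ℕ := fun σ => gp σ.1 * K0 k + ix σ
  have kx1 : ∀ σ, kx σ ≤ (gp σ.1 + 1) * K0 k := fun σ => by
    have := (ix σ).2
    show gp σ.1 * K0 k + ix σ ≤ _
    rw [add_mul]; omega
  have kx2 : ∀ σ, kx σ ≤ r * K0 k := fun σ =>
    (kx1 σ).trans (Nat.mul_le_mul_right _ (hgp _))
  have kxi : ∀ σ σ', kx σ = kx σ' → σ = σ' := by
    intro σ σ' h
    have := (dig (H := K0 k) (x := ix σ) (y := gp σ.1) (x' := ix σ') (y' := gp σ'.1) (ix σ).2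
      (ix σ').2 (by simp only [kx] at h; linarith)).1
    exact ix.injective (Fin.ext this)
  refine ⟨⟨C0 ⊕ C1, inferInstance, q, nn k, by simp [nn, c0, c1], fun σ => sid (H k) (kx σ),
    fun i => sid (H k) (i * K0 k), D k, z, z0, by simp [sid_zero], rfl,
    fun i j hij => sid_mono _ (Nat.mul_le_mul_right _ hij), fun σ => sid_mono _ (by simp [kx]),
    fun σ => sid_mono _ (kx1 σ), fun σ => sid_mono _ (kx2 σ), ?_,
    fun c => Finset.dvd_prod_of_mem _ (Finset.mem_univ c), hbig, Nat.le_of_dvd zpos hz0, ?_,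
    U, W, ?_, ?_, aex, fun l i => by have := h2 l i; rwa [zero_add] at this, ?_, ?_⟩⟩
  · intro a1 a2 a3 a4 b1 b2 b3 b4 h
    rcases sid_B4 (K := r * K0 k) (H := H k) (by simp [H]) (kx2 _) (kx2 _) (kx2 _) (kx2 _) (kx2 _)
      (kx2 _) (kx2 _) (kx2 _) h with h | h | h | h
    · exact Or.inl (kxi _ _ h)
    · exact Or.inr (Or.inl (kxi _ _ h))
    · exact Or.inr (Or.inr (Or.inl (kxi _ _ h)))
    · exact Or.inr (Or.inr (Or.inr (kxi _ _ h)))
  · have a := hbig (Sum.inl (Sum.inr true))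
    have b : q (Sum.inl (Sum.inr true)) ≤ z :=
      Nat.le_of_dvd zpos (Finset.dvd_prod_of_mem _ (Finset.mem_univ _))
    omega
  · rintro ⟨l, _ | i⟩ ⟨l', _ | i'⟩ h
    · exact ⟨Sum.inl (Sum.inl l'), fun e => h (by simp at e; simp [e]), rfl⟩
    · exact ⟨Sum.inl (Sum.inr false), rfl, rfl⟩
    · exact ⟨Sum.inl (Sum.inr true), rfl, rfl⟩
    · have : cd (l, i) ≠ cd (l', i') := fun e => h (by
        have := cd.injective e
        simp at this; simp [this])
      obtain ⟨j, hj⟩ := Function.ne_iff.1 this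
      exact ⟨Sum.inr (j, cd (l', i') j), hj.symm, rfl⟩
  · intro l Γ
    obtain ⟨a, a1, a2, a3⟩ := crt_window q0 (fun c => Nat.succ_ne_zero _) hq0
      (fun c => if W (l, none) (Sum.inl c) then Γ else 0) z
    refine ⟨a, a1, a2, ?_, ?_⟩
    · rintro (c | c) hc
      · have := a3 c
        rw [if_neg (hUW _ _ hc)] at this
        exact (Nat.modEq_zero_iff_dvd).1 this
      · exact absurd hc (by simp [U])
    · rintro (c | c) hc
      · have := a3 c
        rwa [if_pos hc] at this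
      · exact absurd hc (by simp [W])
  · intro l i c hc
    have := h3 l i c
    rw [if_neg (hUW _ _ hc)] at this
    exact (Nat.modEq_zero_iff_dvd).1 this
  · intro l i c hc
    have := h3 l i c
    rwa [if_pos hc] at this

end Crest.Agent.R320
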