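import Crest.Agent.R320.Ht

/-! Sets of words on which every value class of a fixed morphism is covered in height one. -/

set_option autoImplicit false

namespace Crest.Agent.R320

variable {α : Type*} {M : Type*} [Monoid M]

/-- A morphism from words to a monoid. -/
structure Mor (α : Type*) (M : Type*) [Monoid M] where
  f : List α → M
  nil : f [] = 1
  app : ∀ u v, f (u ++ v) = f u * f v

theorem Mor.flatten (ψ : Mor α M) (l : List (List α)) : ψ.f l.flatten = (l.map ψ.f).prod := by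
  induction l with
  | nil => simpa using ψ.nil
  | cons a l ih => simp [ψ.app, ih]

/-- `S` is thin for `ψ`. -/
def Thin (ψ : Mor α M) (S : List α → Prop) : Prop :=
  ∀ g : M, ∃ L : List α → Prop, Ht 1 L ∧ (∀ w, S w → ψ.f w = g → L w) ∧ (∀ w, L w → ψ.f w = g)

namespace Thin

variable {ψ : Mor α M} {S T : List α → Prop}

theorem mono (h : Thin ψ T) (hST : ∀ w, S w → T w) : Thin ψ S := fun g => by
  obtain ⟨L, h1, h2, h3⟩ := h g
  exact ⟨L, h1, fun w hw => h2 w (hST w hw), h3⟩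

theorem or' (h : Thin ψ S) (h' : Thin ψ T) : Thin ψ (fun w => S w ∨ T w) := fun g => by
  obtain ⟨L, h1, h2, h3⟩ := h g
  obtain ⟨L', h1', h2', h3'⟩ := h' g
  refine ⟨fun w => L w ∨ L' w, h1.or' h1', ?_, ?_⟩
  · rintro w (hw | hw) hg
    · exact Or.inl (h2 w hw hg)
    · exact Or.inr (h2' w hw hg)
  · rintro w (hw | hw)
    · exact h3 w hw
    · exact h3' w hw

theorem exSet {ι : Type*} {s : Set ι} (hs : s.Finite) {F : ι → List α → Prop}
    (h : ∀ i ∈ s, Thin ψ (F i)) : Thin ψ (fun w => ∃ i ∈ s, F i w) := fun g => by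
  choose! L h1 h2 h3 using fun i hi => h i hi g
  refine ⟨fun w => ∃ i ∈ s, L i w, Ht.exSet hs h1, ?_, ?_⟩
  · rintro w ⟨i, hi, hw⟩ hg
    exact ⟨i, hi, h2 i hi w hw hg⟩
  · rintro w ⟨i, hi, hw⟩
    exact h3 i hi w hw

theorem cat [Finite M] (h : Thin ψ S) (h' : Thin ψ T) :
    Thin ψ (fun w => ∃ u v, w = u ++ v ∧ S u ∧ T v) := fun g => by
  choose L h1 h2 h3 using h
  choose L' h1' h2' h3' using h'
  refine ⟨fun w => ∃ p : M × M, p.1 * p.2 = g ∧ ∃ u v, w = u ++ v ∧ L p.1 u ∧ L' p.2 v,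
    Ht.ex (fun p => (Ht.const _).and' ((h1 _).cat (h1' _))), ?_, ?_⟩
  · rintro w ⟨u, v, rfl, hu, hv⟩ hg
    exact ⟨(ψ.f u, ψ.f v), by rw [← hg, ψ.app], u, v, rfl, h2 _ _ hu rfl, h2' _ _ hv rfl⟩
  · rintro w ⟨p, hp, u, v, rfl, hu, hv⟩
    rw [ψ.app, h3 _ _ hu, h3' _ _ hv, hp]

theorem ofLen [Finite α] (c : ℕ) : Thin ψ (fun w => w.length ≤ c) := fun g =>
  ⟨fun w => w.length ≤ c ∧ ψ.f w = g, Ht.ofLen c (fun _ h => h.1), fun _ h h' => ⟨h, h'⟩,
    fun _ h => h.2⟩

theorem ht (h : Thin ψ S) (hS : Ht 1 S) (g : M) : Ht 1 (fun w => S w ∧ ψ.f w = g) := by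
  obtain ⟨L, h1, h2, h3⟩ := h g
  exact (hS.and' h1).congr (fun w => ⟨fun h => ⟨h.1, h3 w h.2⟩, fun h => ⟨h.1, h2 w h.1 h.2⟩⟩)

end Thin

theorem exists_period [Finite M] (x : M) : ∃ a o : ℕ, 0 < o ∧ x ^ (a + o) = x ^ a := by
  obtain ⟨i, j, hij, h⟩ := Finite.exists_ne_map_eq_of_infinite (fun n : ℕ => x ^ n)
  rcases lt_or_gt_of_ne hij with hlt | hlt
  · exact ⟨i, j - i, by omega, by rw [Nat.add_sub_cancel' hlt.le]; exact h.symm⟩
  · exact ⟨j, i - j, by omega, by rw [Nat.add_sub_cancel' hlt.le]; exact h⟩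

/-- The `e`-th power of the word `u`. -/
def pw (u : List α) (e : ℕ) : List α := (List.replicate e u).flatten

theorem pw_zero (u : List α) : pw u 0 = [] := rfl

theorem pw_succ (u : List α) (e : ℕ) : pw u (e + 1) = u ++ pw u e := by
  simp [pw, List.replicate_succ]

theorem pw_add (u : List α) (a b : ℕ) : pw u (a + b) = pw u a ++ pw u b := by
  unfold pw
  rw [List.replicate_add, List.flatten_append]

theorem Mor.pw (ψ : Mor α M) (u : List α) (e : ℕ) : ψ.f (pw u e) = ψ.f u ^ e := by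
  simp [R320.pw, ψ.flatten]

theorem pw_mul (u : List α) (o k : ℕ) : pw u (o * k) = (List.replicate k (pw u o)).flatten := by
  induction k with
  | zero => simp [pw]
  | succ k ih => rw [Nat.mul_succ, add_comm, pw_add, ih]; simp [List.replicate_succ]

theorem Thin.pow [Finite M] {ψ : Mor α M} (u : List α) :
    Thin ψ (fun w => ∃ e, w = pw u e) := fun g => by
  obtain ⟨a, o, ho, hao⟩ := exists_period (ψ.f u)
  have hper : ∀ e k, a ≤ e → ψ.f u ^ (e + o * k) = ψ.f u ^ e := by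
    intro e k he
    induction k with
    | zero => simp
    | succ k ih =>
      have : e + o * (k + 1) = (a + o) + (e - a + o * k) := by
        rw [Nat.mul_succ]; omega
      rw [this, pow_add, hao, ← pow_add, ← ih]
      congr 1; omega
  refine ⟨fun w => ∃ e ∈ Set.Iio (a + o), ψ.f u ^ e = g ∧ (w = pw u e ∨ (a ≤ e ∧
      ∃ x y, w = x ++ y ∧ x = pw u e ∧
        ∃ l : List (List α), y = l.flatten ∧ ∀ v ∈ l, v = pw u o)),
    Ht.exSet (Set.finite_Iio _) (fun e _ => (Ht.const _).and' ((Ht.eq' _).or'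
      ((Ht.const _).and' ((Ht.eq' _).cat (Ht.eq' (n := 0) _).star)))), ?_, ?_⟩
  · rintro w ⟨e, rfl⟩ hg
    rw [ψ.pw] at hg
    by_cases he : e < a
    · exact ⟨e, by simp; omega, hg, Or.inl rfl⟩
    · have hd := Nat.mod_add_div (e - a) o
      have hm := Nat.mod_lt (e - a) ho
      have he' : e = (a + (e - a) % o) + o * ((e - a) / o) := by omega
      refine ⟨a + (e - a) % o, by simp; omega, ?_, Or.inr ⟨by omega, _, _, ?_, rfl,
        List.replicate ((e - a) / o) (pw u o), rfl, fun v hv => List.eq_of_mem_replicate hv⟩⟩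
      · rw [← hg, ← hper (a + (e - a) % o) ((e - a) / o) (by omega), ← he']
      · rw [← pw_mul, ← pw_add, ← he']
  · rintro w ⟨e, -, hg, rfl | ⟨hae, x, y, rfl, rfl, l, rfl, hl⟩⟩
    · rw [ψ.pw, hg]
    · have : l = List.replicate l.length (pw u o) := List.eq_replicate_iff.2 ⟨rfl, hl⟩
      rw [this, ← pw_mul, ← pw_add, ψ.pw, hper e _ hae, hg]

theorem comm_pw {u k : List α} (h : u ++ k = k ++ u) (e : ℕ) : u ++ pw k e = pw k e ++ u := by
  induction e with
  | zero => simp [pw_zero]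
  | succ e ih => rw [pw_succ, ← List.append_assoc, h, List.append_assoc, ih, List.append_assoc]

theorem Thin.comm [Finite M] {ψ : Mor α M} {K : Set (List α)} (hK : K.Finite)
    (hc : ∀ u ∈ K, ∀ v ∈ K, u ++ v = v ++ u) :
    Thin ψ (fun w => ∃ l : List (List α), w = l.flatten ∧ ∀ u ∈ l, u ∈ K) := by
  induction K, hK using Set.Finite.induction_on with
  | empty =>
    intro g
    refine ⟨fun w => w = [] ∧ (1 : M) = g, Ht.nil'.and' (Ht.const _), ?_, ?_⟩
    · rintro w ⟨l, rfl, hl⟩ hg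
      have : l = [] := by
        cases l with
        | nil => rfl
        | cons a l => exact absurd (hl a (by simp)) (by simp)
      subst this
      exact ⟨rfl, by rw [← hg]; exact ψ.nil.symm⟩
    · rintro w ⟨rfl, h⟩
      rw [ψ.nil, h]
  | @insert k K _ _ ih =>
    refine ((Thin.pow k).cat (ih (fun u hu v hv => hc u (by simp [hu]) v (by simp [hv])))).mono ?_
    rintro w ⟨l, rfl, hl⟩
    suffices h : ∃ e, ∃ l' : List (List α), l.flatten = pw k e ++ l'.flatten ∧ ∀ u ∈ l', u ∈ K by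
      obtain ⟨e, l', h1, h2⟩ := h
      exact ⟨_, _, h1, ⟨e, rfl⟩, l', rfl, h2⟩
    induction l with
    | nil => exact ⟨0, [], by simp [pw_zero], by simp⟩
    | cons a l ihl =>
      obtain ⟨e, l', h1, h2⟩ := ihl (fun u hu => hl u (by simp [hu]))
      rcases Set.mem_insert_iff.1 (hl a (by simp)) with rfl | ha
      · exact ⟨e + 1, l', by simp [h1, pw_succ], h2⟩
      · refine ⟨e, a :: l', ?_, by simpa [ha] using h2⟩
        rw [List.flatten_cons, h1, ← List.append_assoc,
          comm_pw (hc a (by simp [ha]) k (by simp)) e]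
        simp

end Crest.Agent.R320
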